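import Vale.Agent.P264.Assembly.Rescale
import Vale.Agent.P264.Middle.SliceInt

/-!
Continuity of the bootstrap quantities in rescaled time.
-/

namespace Vale.Agent.P264.Assembly

open Set Filter Metric MeasureTheory
open scoped ContDiff Topology
open Calc

/-- Uniform convergence in space of a function continuous on a product. -/
theorem unif_slice {g : ℝ → ℝ → ℝ} {I : Set ℝ} {a b : ℝ}
    (hg : ContinuousOn (Function.uncurry g) (I ×ˢ Icc a b)) {t₀ : ℝ} (ht : t₀ ∈ I) {ε : ℝ}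
    (hε : 0 < ε) : ∀ᶠ t in 𝓝[I] t₀, ∀ x ∈ Icc a b, |g t x - g t₀ x| ≤ ε := by
  obtain ⟨v, hv, hvs⟩ :=
    (isCompact_Icc (a := a) (b := b)).mem_uniformity_of_prod hg ht (dist_mem_uniformity hε)
  filter_upwards [hv] with t h x hx
  exact (le_of_lt (hvs t h x hx) : dist (g t x) (g t₀ x) ≤ ε)

/-- A smooth family vanishing at the left end moves at most linearly there. -/
theorem unif_lin_left {f : ℝ → ℝ → ℝ} {I : Set ℝ} {b : ℝ} (hI : UniqueDiffOn ℝ I) (hb : 0 < b)
    (hf : Smooth2 I (Icc 0 b) f) (h0 : ∀ t ∈ I, f t 0 = 0) {t₀ : ℝ} (ht : t₀ ∈ I) {ε : ℝ}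
    (hε : 0 < ε) : ∀ᶠ t in 𝓝[I] t₀, ∀ x ∈ Icc 0 b, |f t x - f t₀ x| ≤ ε * x := by
  have hJ : UniqueDiffOn ℝ (Icc (0:ℝ) b) := uniqueDiffOn_Icc hb
  filter_upwards [unif_slice (hf.pdX hI hJ).continuousOn ht hε, self_mem_nhdsWithin] with t h htI x hx
  have := (convex_Icc (0:ℝ) b).norm_image_sub_le_of_norm_hasDerivWithin_le
    (f := fun z => f t z - f t₀ z)
    (f' := fun z => pdX I (Icc 0 b) f t z - pdX I (Icc 0 b) f t₀ z)
    (fun z hz => (hf.hasDerivWithinAt_x htI hz).sub (hf.hasDerivWithinAt_x ht hz))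
    (fun z hz => by simpa [Real.norm_eq_abs] using h z hz) (left_mem_Icc.2 hb.le) hx
  simpa [h0 t htI, h0 t₀ ht, abs_of_nonneg hx.1] using this

/-- The same at the right end. -/
theorem unif_lin_right {f : ℝ → ℝ → ℝ} {I : Set ℝ} {b : ℝ} (hI : UniqueDiffOn ℝ I) (hb : 0 < b)
    (hf : Smooth2 I (Icc 0 b) f) (h0 : ∀ t ∈ I, f t b = 0) {t₀ : ℝ} (ht : t₀ ∈ I) {ε : ℝ}
    (hε : 0 < ε) : ∀ᶠ t in 𝓝[I] t₀, ∀ x ∈ Icc 0 b, |f t x - f t₀ x| ≤ ε * (b - x) := by
  have hg : Smooth2 I (Icc 0 b) fun t x => f t (b - x) := by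
    refine hf.comp (s := I ×ˢ Icc (0:ℝ) b) (f := fun p : ℝ × ℝ => (p.1, b - p.2)) (by fun_prop) ?_
    exact fun p hp => ⟨hp.1, by linarith [hp.2.2], by linarith [hp.2.1]⟩
  filter_upwards [unif_lin_left hI hb hg (fun t ht => by simpa using h0 t ht) ht hε] with t h x hx
  simpa using h (b - x) ⟨by linarith [hx.2], by linarith [hx.1]⟩

/-- A profile is bounded below by a multiple of the distance to the ends. -/
theorem profile_lower {L : ℝ} (hL : 0 < L) {g : ℝ → ℝ} (h : IsProfile L g) :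
    ∃ κ, 0 < κ ∧ ∀ x ∈ Icc 0 L, κ * min x (L - x) ≤ g x := by
  have hd : DifferentiableOn ℝ g (Icc 0 L) := h.smooth.differentiableOn (by simp)
  have h0 : HasDerivWithinAt g 1 (Icc 0 L) 0 :=
    h.slope_left ▸ (hd 0 (left_mem_Icc.2 hL.le)).hasDerivWithinAt
  have hR : HasDerivWithinAt g (-1) (Icc 0 L) L :=
    h.slope_right ▸ (hd L (right_mem_Icc.2 hL.le)).hasDerivWithinAt
  have e0 : ∀ᶠ x in 𝓝[Icc 0 L] (0:ℝ), x / 2 ≤ g x := by
    have := h0.hasFDerivWithinAt.isLittleO.def (half_pos one_pos)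
    filter_upwards [this, self_mem_nhdsWithin] with x hx hxI
    simp [h.left, Real.norm_eq_abs, abs_of_nonneg hxI.1] at hx
    linarith [(abs_le.1 hx).1]
  have e1 : ∀ᶠ x in 𝓝[Icc 0 L] L, (L - x) / 2 ≤ g x := by
    have := hR.hasFDerivWithinAt.isLittleO.def (half_pos one_pos)
    filter_upwards [this, self_mem_nhdsWithin] with x hx hxI
    simp [h.right, Real.norm_eq_abs, abs_of_nonpos (sub_nonpos.2 hxI.2)] at hx
    linarith [(abs_le.1 hx).1]
  rw [eventually_nhdsWithin_iff, Metric.eventually_nhds_iff] at e0 e1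
  obtain ⟨r0, hr0, e0⟩ := e0
  obtain ⟨r1, hr1, e1⟩ := e1
  set r := min (min r0 r1) L / 2 with hr
  have hrpos : 0 < r := by positivity
  have hr0' : r < r0 := by
    have := (min_le_left (min r0 r1) L).trans (min_le_left _ _); linarith
  have hr1' : r < r1 := by
    have := (min_le_left (min r0 r1) L).trans (min_le_right _ _); linarith
  have hrL : r ≤ L / 2 := by have := min_le_right (min r0 r1) L; linarith
  obtain ⟨z, hz, hmin⟩ := (isCompact_Icc (a := r) (b := L - r)).exists_isMinOn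
    ⟨r, le_rfl, by linarith⟩ (h.smooth.continuousOn.mono (Icc_subset_Icc hrpos.le (by linarith)))
  have hgz : 0 < g z := h.pos z ⟨by linarith [hz.1], by linarith [hz.2]⟩
  refine ⟨min (1 / 2) (g z / L), lt_min (by norm_num) (div_pos hgz hL), fun x hx => ?_⟩
  have hmn : 0 ≤ min x (L - x) := le_min hx.1 (by linarith [hx.2])
  rcases lt_or_ge x r with hxr | hxr
  · have := e0 (y := x) (by rw [Real.dist_eq, sub_zero, abs_of_nonneg hx.1]; linarith) hx
    calc min (1 / 2) (g z / L) * min x (L - x) ≤ 1 / 2 * x :=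
          mul_le_mul (min_le_left _ _) (min_le_left _ _) hmn (by norm_num)
      _ ≤ g x := by linarith
  rcases lt_or_ge (L - r) x with hxr' | hxr'
  · have := e1 (y := x) (by rw [Real.dist_eq, abs_of_nonpos (by linarith [hx.2])]; linarith) hx
    calc min (1 / 2) (g z / L) * min x (L - x) ≤ 1 / 2 * (L - x) :=
          mul_le_mul (min_le_left _ _) (min_le_right _ _) hmn (by norm_num)
      _ ≤ g x := by linarith
  calc min (1 / 2) (g z / L) * min x (L - x) ≤ g z / L * L :=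
        mul_le_mul (min_le_right _ _) ((min_le_left _ _).trans hx.2) hmn (by positivity)
    _ = g z := div_mul_cancel₀ _ hL.ne'
    _ ≤ g x := hmin ⟨hxr, hxr'⟩

/-- Rescaled functions are smooth on `[0, ∞) × [0, b]` for `b ≤ L`. -/
theorem smooth2_rescaled {L b : ℝ} (hbL : b ≤ L) {f : ℝ → ℝ → ℝ}
    (hf : Smooth2 (Ico 0 1) (Icc 0 L) f) :
    Smooth2 (Ici 0) (Icc 0 b) fun s y =>
      Real.exp (s / 2) * f (tof s) (Real.exp (-s / 2) * y) := by
  refine (Real.contDiff_exp.comp_contDiffOn (contDiffOn_fst.div_const 2)).mul ?_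
  refine hf.comp (s := Ici (0:ℝ) ×ˢ Icc (0:ℝ) b)
    (f := fun p : ℝ × ℝ => (tof p.1, Real.exp (-p.1 / 2) * p.2)) ?_ ?_
  · have : ContDiff ℝ ∞ tof := contDiff_const.sub (Real.contDiff_exp.comp contDiff_neg)
    exact ((this.comp contDiff_fst).prodMk
      ((Real.contDiff_exp.comp (contDiff_fst.neg.div_const 2)).mul contDiff_snd)).contDiffOn
  · exact fun p hp => ⟨tof_mem hp.1, mul_nonneg (Real.exp_pos _).le hp.2.1,
      (x_le hp.2.1 hp.1).trans (hp.2.2.trans hbL)⟩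

theorem tof_tendsto {s₀ : ℝ} (hs : 0 ≤ s₀) :
    Tendsto tof (𝓝[Ici 0] s₀) (𝓝[Ico 0 1] tof s₀) :=
  ((continuous_const.sub (Real.continuous_exp.comp continuous_neg)).continuousWithinAt
    (s := Ici (0:ℝ)) (x := s₀)).tendsto_nhdsWithin fun _ h => tof_mem h

variable {σ : Shrinker} {L R : ℝ} {φ₀ : ℝ → ℝ} {φ w : ℝ → ℝ → ℝ}

theorem flow_Ico (h : IsFlow L 1 φ₀ φ) : Smooth2 (Ico 0 1) (Icc 0 L) φ :=
  h.smooth.mono (prod_mono Ico_subset_Icc_self subset_rfl)

theorem contN (hL : 0 < L) (hw : RelPot σ L φ w) :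
    ContinuousOn (normN L w) (Ici 0) := by
  have key : ∀ s, normN L w s = ∫ x in (0:ℝ)..L,
      Real.exp (s / 2) * (rho 5 (Real.exp (s / 2) * x)
        * (Real.exp (s / 2) * w (tof s) x) ^ 2) := by
    intro s
    rw [intervalIntegral.integral_const_mul]
    have := intervalIntegral.smul_integral_comp_mul_left (a := 0) (b := L)
      (fun y => rho 5 y * snap w s y ^ 2) (Real.exp (s / 2))
    simp only [snap, smul_eq_mul, mul_zero, ← mul_assoc (Real.exp (-s / 2)),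
      mul_comm (Real.exp (-s / 2)) (Real.exp (s / 2)), exp_half_mul, one_mul] at this
    rw [this]
    simp [normN, wsq, Ys, snap, mul_comm L]
  intro s₀ hs₀
  have hI : Ici (0:ℝ) ∩ Iic (s₀ + 1) = Icc 0 (s₀ + 1) := Ici_inter_Iic
  refine (continuousWithinAt_inter (Iic_mem_nhds (lt_add_one s₀))).1 ?_
  rw [hI]
  refine ContinuousOn.continuousWithinAt ?_ ⟨hs₀, (lt_add_one s₀).le⟩
  refine (Middle.continuousOn_slice_integral (F := fun s x => Real.exp (s / 2)
    * (rho 5 (Real.exp (s / 2) * x) * (Real.exp (s / 2) * w (tof s) x) ^ 2)) hL.le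
    (add_nonneg hs₀ zero_le_one) ?_).congr fun s _ => key s
  have he : Continuous fun p : ℝ × ℝ => Real.exp (p.1 / 2) := by fun_prop
  have hr : Continuous (rho 5) := by
    unfold rho; exact Continuous.div (by fun_prop) (by fun_prop) fun y => by positivity
  refine he.continuousOn.mul ((hr.comp (he.mul continuous_snd)).continuousOn.mul
    ((he.continuousOn.mul ?_).pow 2))
  refine hw.pot.smooth.continuousOn.comp (f := fun p : ℝ × ℝ => (tof p.1, p.2)) ?_
    fun p hp => ⟨tof_mem hp.1.1, hp.2⟩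
  have : Continuous fun p : ℝ × ℝ => tof p.1 := by unfold tof; fun_prop
  exact (this.prodMk continuous_snd).continuousOn

theorem snap_smooth2 {b : ℝ} (hbL : b ≤ L) (hw : RelPot σ L φ w) :
    Smooth2 (Ici 0) (Icc 0 b) (snap w) :=
  smooth2_rescaled hbL hw.pot.smooth

theorem zOne_eq {b : ℝ} (hbL : b ≤ L) (hw : RelPot σ L φ w) {s y : ℝ} (hs : 0 ≤ s)
    (hy : y ∈ Icc 0 b) : zOne w s y = pdT (Ici 0) (Icc 0 b) (snap w) s y :=
  (snap_smooth2 hbL hw).derivWithin_t (uniqueDiffOn_Ici 0) hs hy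

theorem zTwo_eq {b : ℝ} (hb : 0 < b) (hbL : b ≤ L) (hw : RelPot σ L φ w) {s y : ℝ} (hs : 0 ≤ s)
    (hy : y ∈ Icc 0 b) :
    zTwo w s y = pdT (Ici 0) (Icc 0 b) (pdT (Ici 0) (Icc 0 b) (snap w)) s y := by
  unfold zTwo
  rw [derivWithin_congr (s := Ici (0:ℝ)) (f := fun r => pdT (Ici 0) (Icc 0 b) (snap w) r y)
    (fun r (hr : r ∈ Ici (0:ℝ)) => zOne_eq hbL hw hr hy) (zOne_eq hbL hw hs hy)]
  exact ((snap_smooth2 hbL hw).pdT (uniqueDiffOn_Ici 0) (uniqueDiffOn_Icc hb)).derivWithin_t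
    (uniqueDiffOn_Ici 0) hs hy

theorem continuousOn_wsq_slice {b : ℝ} {κ : ℝ → ℝ} (hb : 0 ≤ b) (hκ : Continuous κ)
    {G G' : ℝ → ℝ → ℝ} (hG : ContinuousOn (Function.uncurry G) (Ici 0 ×ˢ Icc 0 b))
    (heq : ∀ s, 0 ≤ s → ∀ y ∈ Icc 0 b, G' s y = G s y) :
    ContinuousOn (fun s => wsq 5 8 κ b (G' s)) (Ici 0) := by
  intro s₀ hs₀
  refine (continuousWithinAt_inter (Iic_mem_nhds (lt_add_one s₀))).1 ?_
  rw [show Ici (0:ℝ) ∩ Iic (s₀ + 1) = Icc 0 (s₀ + 1) from Ici_inter_Iic]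
  refine ContinuousOn.continuousWithinAt ?_ ⟨hs₀, (lt_add_one s₀).le⟩
  have hr : Continuous (rho 5) := by
    unfold rho; exact Continuous.div (by fun_prop) (by fun_prop) fun y => by positivity
  refine (Middle.continuousOn_slice_integral (F := fun s y => κ y ^ 8 * rho 5 y * G s y ^ 2) hb
    (add_nonneg hs₀ zero_le_one) ?_).congr fun s hs => ?_
  · exact (((hκ.comp continuous_snd).pow 8).mul (hr.comp continuous_snd)).continuousOn.mul
      ((hG.mono (prod_mono Icc_subset_Ici_self subset_rfl)).pow 2)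
  · refine intervalIntegral.integral_congr fun y hy => ?_
    rw [uIcc_of_le hb] at hy
    simp only [heq s hs.1 y hy]

theorem continuousOn_normE (hR : 0 < R) (hRL : 32 * R ≤ L) (hw : RelPot σ L φ w) :
    ContinuousOn (normE R w) (Ici 0) := by
  have h1 : Continuous (th1 R) := Real.smoothTransition.continuous.comp (by fun_prop)
  have h2 : Continuous (th2 R) := Real.smoothTransition.continuous.comp (by fun_prop)
  have hI := uniqueDiffOn_Ici (0:ℝ)
  refine (continuousOn_wsq_slice (by linarith) h1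
    ((snap_smooth2 hRL hw).pdT hI (uniqueDiffOn_Icc (by linarith))).continuousOn
    fun s hs y hy => zOne_eq hRL hw hs hy).add ?_
  have hb2 : 16 * R ≤ L := by linarith
  exact continuousOn_wsq_slice (by linarith) h2
    (((snap_smooth2 hb2 hw).pdT hI (uniqueDiffOn_Icc (by linarith))).pdT hI
      (uniqueDiffOn_Icc (by linarith))).continuousOn
    fun s hs y hy => zTwo_eq (by linarith) hb2 hw hs hy

/-- Strict form of the bootstrap. -/
structure Strict (σ : Shrinker) (L R η M : ℝ) (φ w : ℝ → ℝ → ℝ) (s : ℝ) : Prop where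
  small : normN L w s + normE R w s ≤ η / 2
  lower : ∀ y ∈ Ioo 0 (Ys L s), rprof (phiRef σ L) s y ≤ M * rprof φ s y
  upper : ∀ y ∈ Ioo 0 (Ys L s), rprof φ s y ≤ M * rprof (phiRef σ L) s y
  slope : ∀ y ∈ Ioo 0 (Ys L s), |deriv (rprof φ s) y| ≤ M
  cap : ∀ y ∈ Ioo 0 (8 * R), |rprof φ s y - profF σ y| ≤ profF σ y / 2000

theorem boot_persist (hL : 0 < L) (hR : 0 < R) (hRL : 32 * R ≤ L) (h : IsFlow L 1 φ₀ φ)
    (hw : RelPot σ L φ w) (href : ∀ t ∈ Ico (0:ℝ) 1, IsProfile L (phiRef σ L t))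
    (hrefS : Smooth2 (Ico 0 1) (Icc 0 L) (phiRef σ L)) {η M : ℝ} (hη : 0 < η) (hM : 1 ≤ M)
    {s₀ : ℝ} (hs₀ : 0 ≤ s₀) (hst : Strict σ L R η M φ w s₀) :
    ∀ᶠ s in 𝓝[Ici 0] s₀, Boot σ L R η (2 * M) φ w s := by
  have hu := uniqueDiffOn_Ico (0:ℝ) 1
  set t₀ := tof s₀
  have ht₀ : t₀ ∈ Ico (0:ℝ) 1 := tof_mem hs₀
  obtain ⟨κ, hκ, hlow⟩ := profile_lower hL (profile_slice h hs₀)
  obtain ⟨κ', hκ', hlow'⟩ := profile_lower hL (href t₀ ht₀)
  have hφS := flow_Ico h
  have hM0 : 0 < M := by linarith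
  set ε := min (min κ κ' * M / (2 * M + 1)) M with hεdef
  have hε : 0 < ε := lt_min (by positivity) hM0
  have hεκ : (2 * M + 1) * ε ≤ κ * M := by
    calc (2 * M + 1) * ε ≤ (2 * M + 1) * (min κ κ' * M / (2 * M + 1)) :=
          mul_le_mul_of_nonneg_left (min_le_left _ _) (by linarith)
      _ = min κ κ' * M := by field_simp
      _ ≤ κ * M := mul_le_mul_of_nonneg_right (min_le_left _ _) hM0.le
  have hεκ' : (2 * M + 1) * ε ≤ κ' * M := by
    calc (2 * M + 1) * ε ≤ (2 * M + 1) * (min κ κ' * M / (2 * M + 1)) :=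
          mul_le_mul_of_nonneg_left (min_le_left _ _) (by linarith)
      _ = min κ κ' * M := by field_simp
      _ ≤ κ' * M := mul_le_mul_of_nonneg_right (min_le_right _ _) hM0.le
  have T := tof_tendsto hs₀
  have eA := T.eventually (unif_lin_left hu hL hφS
    (fun t ht => (h.profile t (Ico_subset_Icc_self ht)).left) ht₀ hε)
  have eB := T.eventually (unif_lin_right hu hL hφS
    (fun t ht => (h.profile t (Ico_subset_Icc_self ht)).right) ht₀ hε)
  have eC := T.eventually (unif_lin_left hu hL hrefS (fun t ht => (href t ht).left) ht₀ hε)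
  have eD := T.eventually (unif_lin_right hu hL hrefS (fun t ht => (href t ht).right) ht₀ hε)
  have eX := T.eventually (unif_slice
    (hφS.pdX hu (uniqueDiffOn_Icc hL)).continuousOn ht₀ hε)
  obtain ⟨z, hz, hzmin⟩ := (isCompact_Icc (a := (0:ℝ)) (b := 8 * R)).exists_isMinOn
    (nonempty_Icc.2 (by linarith)) (σ.q_smooth.continuousOn.mono Icc_subset_Ici_self)
  have hqz : 0 < σ.q z := σ.q_pos z hz.1
  have hb : 8 * R ≤ L := by linarith
  have eCap := unif_lin_left (uniqueDiffOn_Ici (0:ℝ)) (by linarith : (0:ℝ) < 8 * R)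
    (f := rprof φ) (smooth2_rescaled hb hφS) (fun s hs => rprof_left h hs) hs₀
    (by positivity : 0 < σ.q z / 2000)
  have eN := ((contN hL hw).add (continuousOn_normE hR hRL hw)).continuousWithinAt hs₀
  have eN' := eN.eventually (gt_mem_nhds (lt_of_le_of_lt hst.small (half_lt_self hη)))
  filter_upwards [eA, eB, eC, eD, eX, eCap, eN', self_mem_nhdsWithin] with s hA hB hC hD hX hcap
    hN hs
  have key : ∀ y ∈ Ioo 0 (Ys L s),
      rprof (phiRef σ L) s y ≤ 2 * M * rprof φ s y ∧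
      rprof φ s y ≤ 2 * M * rprof (phiRef σ L) s y ∧ |deriv (rprof φ s) y| ≤ 2 * M := by
    intro y hy
    have hx := x_mem_Ioo hy
    set x := Real.exp (-s / 2) * y with hxdef
    have hxI := Ioo_subset_Icc_self hx
    have hm : 0 ≤ min x (L - x) := le_min hxI.1 (by linarith [hxI.2])
    have da : |φ (tof s) x - φ t₀ x| ≤ ε * min x (L - x) := by
      rw [mul_min_of_nonneg _ _ hε.le]; exact le_min (hA x hxI) (hB x hxI)
    have db : |phiRef σ L (tof s) x - phiRef σ L t₀ x| ≤ ε * min x (L - x) := by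
      rw [mul_min_of_nonneg _ _ hε.le]; exact le_min (hC x hxI) (hD x hxI)
    have y0 := y_mem_Ioo (s := s₀) hx
    have l0 := hst.lower _ y0
    have u0 := hst.upper _ y0
    have d0 := hst.slope _ y0
    rw [rprof_apply, rprof_apply] at l0 u0
    have ep := Real.exp_pos (s₀ / 2)
    have l0' : phiRef σ L t₀ x ≤ M * φ t₀ x :=
      le_of_mul_le_mul_left (by rw [mul_left_comm]; exact l0) ep
    have u0' : φ t₀ x ≤ M * phiRef σ L t₀ x :=
      le_of_mul_le_mul_left (by rw [mul_left_comm]; exact u0) ep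
    rw [deriv_rprof, ← mul_assoc, mul_comm (Real.exp (-s₀ / 2)), exp_half_mul, one_mul,
      hφS.deriv_x ht₀ (Icc_mem_nhds hx.1 hx.2)] at d0
    have a1 := abs_le.1 da
    have b1 := abs_le.1 db
    have lk := hlow x hxI
    have lk' := hlow' x hxI
    have g1 := mul_le_mul_of_nonneg_right hεκ hm
    have g2 := mul_le_mul_of_nonneg_right hεκ' hm
    have m1 := mul_le_mul_of_nonneg_left lk hM0.le
    have m2 := mul_le_mul_of_nonneg_left lk' hM0.le
    have ee := Real.exp_pos (s / 2)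
    refine ⟨?_, ?_, ?_⟩
    · show Real.exp (s / 2) * phiRef σ L (tof s) x ≤ 2 * M * (Real.exp (s / 2) * φ (tof s) x)
      rw [mul_left_comm (2 * M)]
      refine mul_le_mul_of_nonneg_left ?_ ee.le
      linarith [mul_le_mul_of_nonneg_left a1.1 (by linarith : (0:ℝ) ≤ 2 * M)]
    · show Real.exp (s / 2) * φ (tof s) x ≤ 2 * M * (Real.exp (s / 2) * phiRef σ L (tof s) x)
      rw [mul_left_comm (2 * M)]
      refine mul_le_mul_of_nonneg_left ?_ ee.le
      linarith [mul_le_mul_of_nonneg_left b1.1 (by linarith : (0:ℝ) ≤ 2 * M)]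
    · rw [deriv_rprof, hφS.deriv_x (tof_mem hs) (Icc_mem_nhds hx.1 hx.2)]
      have := abs_le.1 (hX x hxI)
      have := abs_le.1 d0
      have := min_le_right (min κ κ' * M / (2 * M + 1)) M
      rw [abs_le]; constructor <;> linarith
  refine ⟨hN.le, fun y hy => (key y hy).1, fun y hy => (key y hy).2.1,
    fun y hy => (key y hy).2.2, fun y hy => ?_⟩
  have c1 := hst.cap y hy
  have c2 := hcap y (Ioo_subset_Icc_self hy)
  have c3 : σ.q z / 2000 * y ≤ profF σ y / 2000 := by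
    rw [profF, div_mul_eq_mul_div, mul_comm (σ.q z)]
    have := mul_le_mul_of_nonneg_left (hzmin (Ioo_subset_Icc_self hy)) hy.1.le
    linarith
  have a1 := abs_le.1 c1
  have a2 := abs_le.1 c2
  show |rprof φ s y - profF σ y| ≤ profF σ y / 1000
  rw [abs_le]; constructor <;> linarith

theorem boot_closed (hL : 0 < L) (hR : 0 < R) (hRL : 32 * R ≤ L) (h : IsFlow L 1 φ₀ φ)
    (hw : RelPot σ L φ w) (hrefS : Smooth2 (Ico 0 1) (Icc 0 L) (phiRef σ L)) {η M : ℝ} :
    IsClosed ({s | Boot σ L R η M φ w s} ∩ Ici 0) := by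
  rw [isClosed_iff_clusterPt]
  intro s₀ hc
  have hs₀ : s₀ ∈ Ici (0:ℝ) :=
    isClosed_Ici.mem_of_frequently_of_tendsto
      ((clusterPt_principal_iff_frequently.1 hc).mono fun _ hs => hs.2) tendsto_id
  have hfr : ∃ᶠ s in 𝓝[Ici 0] s₀, Boot σ L R η M φ w s := by
    rw [frequently_nhdsWithin_iff]
    exact clusterPt_principal_iff_frequently.1 hc
  have : (𝓝[Ici 0] s₀).NeBot := nhdsWithin_neBot_of_mem hs₀
  -- a closed relation between continuous functions passes to the limit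
  have lim : ∀ (f g : ℝ → ℝ), ContinuousWithinAt f (Ici 0) s₀ → ContinuousWithinAt g (Ici 0) s₀ →
      (∃ᶠ s in 𝓝[Ici 0] s₀, f s ≤ g s) → f s₀ ≤ g s₀ := by
    intro f g hf hg hfg
    by_contra hlt
    exact hfg ((hg.tendsto.sub hf.tendsto).eventually (gt_mem_nhds (sub_neg.2 (not_le.1 hlt)))
      |>.mono fun s hs => not_le.2 (sub_neg.1 hs))
  have hφS := flow_Ico h
  have hTc : ContinuousWithinAt tof (Ici 0) s₀ := by unfold tof; fun_prop
  have hx : ∀ y, ContinuousWithinAt (fun s => Real.exp (-s / 2) * y) (Ici 0) s₀ := fun y => by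
    fun_prop
  -- pointwise continuity of rescaled functions at a fixed interior point
  have hev : ∀ y ∈ Ioo 0 (Ys L s₀), ∀ᶠ s in 𝓝[Ici 0] s₀, y ∈ Ioo 0 (Ys L s) := by
    intro y hy
    have : Continuous fun s => Ys L s := by unfold Ys; fun_prop
    filter_upwards [(this.continuousWithinAt (s := Ici 0)).eventually (lt_mem_nhds hy.2)] with s hs
    exact ⟨hy.1, hs⟩
  have cs : ∀ (f : ℝ → ℝ → ℝ), Smooth2 (Ico 0 1) (Icc 0 L) f → ∀ y ∈ Ioo 0 (Ys L s₀),
      ContinuousWithinAt (fun s => f (tof s) (Real.exp (-s / 2) * y)) (Ici 0) s₀ := by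
    intro f hf y hy
    have h2 := (hf.continuousOn (tof s₀, Real.exp (-s₀ / 2) * y)
      ⟨tof_mem hs₀, Ioo_subset_Icc_self (x_mem_Ioo hy)⟩)
    refine h2.tendsto.comp (tendsto_nhdsWithin_iff.2 ⟨(hTc.prodMk (hx y)).tendsto, ?_⟩)
    filter_upwards [hev y hy, self_mem_nhdsWithin] with s hs hs0
    exact ⟨tof_mem hs0, Ioo_subset_Icc_self (x_mem_Ioo hs)⟩
  have ce : ContinuousWithinAt (fun s => Real.exp (s / 2)) (Ici 0) s₀ := by fun_prop
  have cr : ∀ (f : ℝ → ℝ → ℝ), Smooth2 (Ico 0 1) (Icc 0 L) f → ∀ y ∈ Ioo 0 (Ys L s₀),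
      ContinuousWithinAt (fun s => rprof f s y) (Ici 0) s₀ := fun f hf y hy =>
    ce.mul (cs f hf y hy)
  have hsub : ∀ y, y ∈ Ioo 0 (8 * R) → y ∈ Ioo 0 (Ys L s₀) := fun y hy =>
    ⟨hy.1, by have := le_Ys hL.le hs₀; linarith [hy.2]⟩
  refine ⟨⟨?_, fun y hy => ?_, fun y hy => ?_, fun y hy => ?_, fun y hy => ?_⟩, hs₀⟩
  · exact lim _ _ ((contN hL hw s₀ hs₀).add (continuousOn_normE hR hRL hw s₀ hs₀))
      continuousWithinAt_const (hfr.mono fun s hs => hs.small)
  · exact lim _ _ (cr _ hrefS y hy) ((cr _ hφS y hy).const_mul M)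
      ((hfr.and_eventually (hev y hy)).mono fun s hs => hs.1.lower y hs.2)
  · exact lim _ _ (cr _ hφS y hy) ((cr _ hrefS y hy).const_mul M)
      ((hfr.and_eventually (hev y hy)).mono fun s hs => hs.1.upper y hs.2)
  · have hd := cs _ (hφS.pdX (uniqueDiffOn_Ico 0 1) (uniqueDiffOn_Icc hL)) y hy
    have heq : ∀ s, 0 ≤ s → y ∈ Ioo 0 (Ys L s) → deriv (rprof φ s) y
        = pdX (Ico 0 1) (Icc 0 L) φ (tof s) (Real.exp (-s / 2) * y) := fun s hs hys => by
      rw [deriv_rprof, hφS.deriv_x (tof_mem hs) (Icc_mem_nhds (x_mem_Ioo hys).1 (x_mem_Ioo hys).2)]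
    rw [heq s₀ hs₀ hy]
    refine lim _ (fun _ => M) hd.abs continuousWithinAt_const ?_
    refine ((hfr.and_eventually (hev y hy)).and_eventually self_mem_nhdsWithin).mono ?_
    rintro s ⟨⟨hb, hys⟩, hs0⟩
    rw [← heq s hs0 hys]
    exact hb.slope y hys
  · exact lim _ _ ((cr _ hφS y (hsub y hy)).sub continuousWithinAt_const).abs
      continuousWithinAt_const (hfr.mono fun s hs => hs.cap y hy)

/-- Continuation: if the bootstrap always improves itself, it holds throughout. -/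
theorem boot_forever (hL : 0 < L) (hR : 0 < R) (hRL : 32 * R ≤ L) (h : IsFlow L 1 φ₀ φ)
    (hw : RelPot σ L φ w) (href : ∀ t ∈ Ico (0:ℝ) 1, IsProfile L (phiRef σ L t))
    (hrefS : Smooth2 (Ico 0 1) (Icc 0 L) (phiRef σ L)) {η M S : ℝ} (hη : 0 < η) (hM : 1 ≤ M)
    (h0 : Boot σ L R η (2 * M) φ w 0)
    (himp : ∀ s ∈ Icc 0 S, (∀ r ∈ Icc 0 s, Boot σ L R η (2 * M) φ w r) →
      Strict σ L R η M φ w s) :
    ∀ s ∈ Icc 0 S, Boot σ L R η (2 * M) φ w s := by
  set B : Set ℝ := {s | Boot σ L R η (2 * M) φ w s}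
  set A : Set ℝ := {s | ∀ r ∈ Icc 0 s, r ∈ B}
  have hBc := boot_closed hL hR hRL h hw hrefS (η := η) (M := 2 * M)
  suffices hA : Icc 0 S ⊆ A from fun s hs => hA hs s ⟨hs.1, le_rfl⟩
  refine IsClosed.Icc_subset_of_forall_mem_nhdsWithin ?_ ?_ ?_
  · rw [isClosed_iff_clusterPt]
    intro s hs
    have hfr := clusterPt_principal_iff_frequently.1 hs
    have hsI : s ∈ Icc 0 S :=
      isClosed_Icc.mem_of_frequently_of_tendsto (hfr.mono fun _ h => h.2) tendsto_id
    refine ⟨fun r hr => ?_, hsI⟩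
    rcases hr.2.lt_or_eq with hlt | rfl
    · obtain ⟨v, hv, hrv⟩ := (hfr.and_eventually (lt_mem_nhds hlt)).exists
      exact hv.1 r ⟨hr.1, hrv.le⟩
    · refine (hBc.mem_of_frequently_of_tendsto (hfr.mono fun v hv => ?_) tendsto_id).1
      exact ⟨hv.1 v ⟨hv.2.1, le_rfl⟩, hv.2.1⟩
  · intro r hr
    obtain rfl : r = 0 := le_antisymm hr.2 hr.1
    exact h0
  · rintro s ⟨hsA, hs⟩
    have hev := boot_persist hL hR hRL h hw href hrefS hη hM hs.1
      (himp s ⟨hs.1, hs.2.le⟩ hsA)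
    rw [eventually_nhdsWithin_iff, Metric.eventually_nhds_iff] at hev
    obtain ⟨d, hd, hev⟩ := hev
    refine mem_nhdsWithin.2 ⟨ball s d, isOpen_ball, mem_ball_self hd, ?_⟩
    rintro v ⟨hv, hsv : s < v⟩ r hr
    rcases le_or_gt r s with hle | hgt
    · exact hsA r ⟨hr.1, hle⟩
    · refine hev (y := r) ?_ hr.1
      rw [mem_ball, Real.dist_eq, abs_of_pos (sub_pos.2 hsv)] at hv
      rw [Real.dist_eq, abs_of_pos (sub_pos.2 hgt)]
      linarith [hr.2]

end Vale.Agent.P264.Assembly
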