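import Vale.Agent.P264.Setup
import Vale.Agent.P264.Dict.Outer

/-!
Initial data: the reference at time zero perturbed by a compactly supported potential.
-/

namespace Vale.Agent.P264.Assembly

open Set Filter
open scoped ContDiff Topology

/-- Smooth, vanishing outside `[a, b]`. -/
structure Supp (a b : ℝ) (p : ℝ → ℝ) : Prop where
  smooth : ContDiff ℝ ∞ p
  zero : ∀ x, x ∉ Icc a b → p x = 0

/-- Second derivative. -/
noncomputable def dd (p : ℝ → ℝ) : ℝ → ℝ := deriv (deriv p)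

/-- The datum whose relative potential is `p`. -/
noncomputable def datum (σ : Shrinker) (L : ℝ) (p : ℝ → ℝ) (x : ℝ) : ℝ :=
  phiRef σ L 0 x / (1 + phiRef σ L 0 x * dd p x)

/-- The shrinker profile. -/
noncomputable def profF (σ : Shrinker) (y : ℝ) : ℝ := y * σ.q y

variable {σ : Shrinker} {L a b : ℝ} {p : ℝ → ℝ}

theorem profF_smooth (σ : Shrinker) : ContDiffOn ℝ ∞ (profF σ) (Ici 0) :=
  contDiffOn_id.mul σ.q_smooth

theorem profF_pos (σ : Shrinker) {y : ℝ} (hy : 0 < y) : 0 < profF σ y :=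
  mul_pos hy (σ.q_pos y hy.le)

theorem profF_nonneg (σ : Shrinker) {y : ℝ} (hy : 0 ≤ y) : 0 ≤ profF σ y :=
  mul_nonneg hy (σ.q_pos y hy).le

theorem phiRef_zero_inner (σ : Shrinker) {L x : ℝ} (hx : x ≤ L / 4) :
    phiRef σ L 0 x = profF σ x := by
  simp [phiRef, hx, profF]

theorem contDiff_dd (hp : ContDiff ℝ ∞ p) : ContDiff ℝ ∞ (dd p) :=
  (contDiff_infty_iff_deriv.1 ((contDiff_infty_iff_deriv.1 hp).2)).2

theorem Supp.dd_zero (hp : Supp a b p) {x : ℝ} (hx : x ∉ Icc a b) : dd p x = 0 := by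
  have h : p =ᶠ[𝓝 x] fun _ => (0:ℝ) := by
    filter_upwards [isClosed_Icc.isOpen_compl.mem_nhds hx] with z hz
    exact hp.zero z hz
  rw [dd, h.deriv.deriv_eq]
  simp

theorem datum_eq_ref (hp : Supp a b p) {x : ℝ} (hx : x ∉ Icc a b) :
    datum σ L p x = phiRef σ L 0 x := by
  simp [datum, hp.dd_zero hx]

theorem datum_inner (σ : Shrinker) (p : ℝ → ℝ) {x : ℝ} (hx : x ≤ L / 4) :
    datum σ L p x = profF σ x / (1 + profF σ x * dd p x) := by
  simp [datum, phiRef_zero_inner σ hx]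

theorem one_add_pos (hp : Supp a b p) (hb : b ≤ L / 4)
    (hs : ∀ x ∈ Icc a b, |profF σ x * dd p x| ≤ 1 / 2) (x : ℝ) :
    0 < 1 + phiRef σ L 0 x * dd p x := by
  by_cases hx : x ∈ Icc a b
  · rw [phiRef_zero_inner σ (hx.2.trans hb)]
    have := (abs_le.1 (hs x hx)).1
    linarith
  · simp [hp.dd_zero hx]

theorem isProfile_datum (hL : 0 < L) (ha : 0 < a) (hb : b ≤ L / 4) (hp : Supp a b p)
    (href : IsProfile L (phiRef σ L 0))
    (hs : ∀ x ∈ Icc a b, |profF σ x * dd p x| ≤ 1 / 2) : IsProfile L (datum σ L p) := by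
  have hden := one_add_pos hp hb hs
  have hout : ∀ x, x ∉ Icc a b → datum σ L p x = phiRef σ L 0 x := fun x hx => datum_eq_ref hp hx
  have h0 : (0:ℝ) ∉ Icc a b := fun h => by linarith [h.1]
  have hLn : L ∉ Icc a b := fun h => by linarith [h.2]
  have heq : ∀ x, x ∉ Icc a b → datum σ L p =ᶠ[𝓝[Icc 0 L] x] phiRef σ L 0 := fun x hx =>
    eventually_nhdsWithin_of_eventually_nhds <| by
      filter_upwards [isClosed_Icc.isOpen_compl.mem_nhds hx] with z hz
      exact hout z hz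
  refine ⟨?_, ?_, ?_, ?_, ?_, ?_⟩
  · exact href.smooth.div (contDiffOn_const.add
      (href.smooth.mul (contDiff_dd hp.smooth).contDiffOn)) fun x _ => (hden x).ne'
  · rw [hout 0 h0]; exact href.left
  · rw [hout L hLn]; exact href.right
  · rw [(heq 0 h0).derivWithin_eq (hout 0 h0)]; exact href.slope_left
  · rw [(heq L hLn).derivWithin_eq (hout L hLn)]; exact href.slope_right
  · exact fun x hx => div_pos (href.pos x hx) (hden x)

theorem datum_second (hb : b ≤ L / 4) (hp : Supp a b p) (href : IsProfile L (phiRef σ L 0))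
    (hs : ∀ x ∈ Icc a b, |profF σ x * dd p x| ≤ 1 / 2) {x : ℝ} (hx : x ∈ Ioo 0 L) :
    dd p x = 1 / datum σ L p x - 1 / phiRef σ L 0 x := by
  have h1 := href.pos x hx
  have h2 := one_add_pos hp hb hs x
  unfold datum
  field_simp [h1.ne', h2.ne']
  ring

end Vale.Agent.P264.Assembly
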