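import Vale.Agent.P264.Energy.Targets
import Vale.Agent.P264.Dict.Targets
import Vale.Agent.P264.Middle.Targets

/-!
Growth of the main norm under the bootstrap: a crude exponential bound.
-/

namespace Vale.Agent.P264.Assembly

open Set
open scoped ContDiff

/-- Slopes of the reference are bounded by an absolute constant. -/
def RefSlope : Prop :=
  ∀ (σ : Shrinker), ∃ L₀ C : ℝ, 0 < L₀ ∧ ∀ L : ℝ, L₀ ≤ L →
    ∀ t ∈ Ico (0:ℝ) 1, ∀ x ∈ Ioo 0 L, |deriv (phiRef σ L t) x| ≤ C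

/-- Under the bootstrap the norm of a relative potential grows at most exponentially. -/
def GrowthTarget : Prop :=
  Energy.CoerciveTarget → Dict.SnapEqnTarget → Dict.NormDerivTarget → Middle.RefTarget →
    RefSlope → ∀ (σ : Shrinker) (M : ℝ), ∃ R₀ : ℝ, 0 < R₀ ∧ ∀ R : ℝ, R₀ ≤ R →
      ∃ η₀ K C L₀ : ℝ, 0 < η₀ ∧ 0 ≤ K ∧ 0 ≤ C ∧ ∀ L : ℝ, L₀ ≤ L →
        ∀ (φ₀ : ℝ → ℝ) (φ w : ℝ → ℝ → ℝ), IsFlow L 1 φ₀ φ → RelPot σ L φ w →
          ∀ s₀ s₁ : ℝ, 0 ≤ s₀ → s₀ ≤ s₁ →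
            (∀ s ∈ Icc s₀ s₁, Boot σ L R η₀ M φ w s) →
            normN L w s₁ ≤ Real.exp (K * (s₁ - s₀)) * (normN L w s₀ + C / L ^ 2)

end Vale.Agent.P264.Assembly
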