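import Vale.Agent.P264.Assembly.RunTargets
import Vale.Agent.P264.Assembly.GrowthTargets
import Vale.Agent.P264.Inner.Targets
import Vale.Agent.P264.Assembly.Cont

/-!
The bootstrap package from the inner and middle estimates.
-/

namespace Vale.Agent.P264.Assembly

open Set Filter MeasureTheory
open scoped ContDiff Topology

theorem comb_supp {d : ℕ} {a b : ℝ} {p : Fin d → ℝ → ℝ} (hp : ∀ i, Supp a b (p i))
    (c : Fin d → ℝ) : Supp a b (comb p c) := by
  refine ⟨ContDiff.sum fun i _ => contDiff_const.mul (hp i).smooth, fun x hx => ?_⟩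
  simp [comb, (hp _).zero x hx]

theorem Supp.dd_zero_of_le {a b : ℝ} {p : ℝ → ℝ} (hp : Supp a b p) {x : ℝ} (hx : b ≤ x) :
    dd p x = 0 := by
  have hcl : IsClosed {z | dd p z = 0} :=
    isClosed_eq (contDiff_dd hp.smooth).continuous continuous_const
  have : Ici b ⊆ {z | dd p z = 0} := by
    rw [← closure_Ioi b]
    exact closure_minimal (fun z (hz : b < z) => hp.dd_zero fun h => by linarith [h.2]) hcl
  exact this hx

theorem abs_comb_le {d : ℕ} (p : Fin d → ℝ → ℝ) (c : Fin d → ℝ) (y : ℝ) :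
    |comb p c y| ≤ ‖c‖ * ∑ i, |p i y| := by
  rw [Finset.mul_sum]
  refine (Finset.abs_sum_le_sum_abs _ _).trans (Finset.sum_le_sum fun i _ => ?_)
  rw [abs_mul]
  exact mul_le_mul_of_nonneg_right (by simpa [Real.norm_eq_abs] using norm_le_pi_norm c i)
    (abs_nonneg _)

theorem rho_five_le_inv {y : ℝ} (hy : 0 ≤ y) : 0 ≤ rho 5 y ∧ rho 5 y ≤ 1 / (1 + y ^ 2) := by
  refine ⟨by unfold rho; positivity, ?_⟩
  unfold rho
  rw [div_le_div_iff₀ (by positivity) (by positivity)]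
  have h1 : y ^ 3 ≤ (1 + y ^ 2) ^ 2 := by nlinarith [sq_nonneg (y - 1), sq_nonneg y]
  have h2 : (1 + y ^ 2) ^ 2 * (1 + y ^ 2) ≤ (1 + y ^ 2) ^ 5 := by
    rw [← pow_succ]
    exact pow_le_pow_right₀ (by nlinarith) (by norm_num)
  nlinarith [mul_le_mul_of_nonneg_right h1 (by positivity : (0:ℝ) ≤ 1 + y ^ 2)]

/-- A weighted norm of a bounded function. -/
theorem wsq_le_of_bound {p : ℕ} {κ V : ℝ → ℝ} {Y e : ℝ} (hY : 0 ≤ Y)
    (hκ0 : ∀ y, 0 ≤ κ y) (hκ1 : ∀ y, κ y ≤ 1) (hV : ∀ y ∈ Ioo 0 Y, |V y| ≤ e) :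
    wsq 5 p κ Y V ≤ 2 * e ^ 2 := by
  have hI : IntervalIntegrable (fun y => e ^ 2 * (1 / (1 + y ^ 2))) volume 0 Y :=
    (continuous_const.mul (continuous_const.div (by fun_prop) fun y => by
      positivity)).intervalIntegrable _ _
  have key : wsq 5 p κ Y V ≤ ∫ y in (0:ℝ)..Y, e ^ 2 * (1 / (1 + y ^ 2)) := by
    by_cases hi : IntervalIntegrable (fun y => κ y ^ p * rho 5 y * V y ^ 2) volume 0 Y
    · refine intervalIntegral.integral_mono_on_of_le_Ioo hY hi hI fun y hy => ?_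
      obtain ⟨r0, r1⟩ := rho_five_le_inv hy.1.le
      have hv : V y ^ 2 ≤ e ^ 2 := sq_le_sq' (abs_le.1 (hV y hy)).1 (abs_le.1 (hV y hy)).2
      calc κ y ^ p * rho 5 y * V y ^ 2 ≤ 1 * rho 5 y * V y ^ 2 := by
            gcongr
            exact pow_le_one₀ (hκ0 y) (hκ1 y)
        _ ≤ 1 / (1 + y ^ 2) * e ^ 2 := by
            rw [one_mul]; exact mul_le_mul r1 hv (sq_nonneg _) (by positivity)
        _ = e ^ 2 * (1 / (1 + y ^ 2)) := mul_comm _ _
    · rw [wsq, intervalIntegral.integral_undef hi]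
      exact intervalIntegral.integral_nonneg hY fun y _ => by positivity
  refine key.trans ?_
  rw [intervalIntegral.integral_const_mul, integral_one_div_one_add_sq, mul_comm 2]
  refine mul_le_mul_of_nonneg_left ?_ (sq_nonneg e)
  linarith [Real.arctan_lt_pi_div_two Y, Real.arctan_zero, Real.pi_lt_four]

theorem th_bounds (R y : ℝ) : (0 ≤ th1 R y ∧ th1 R y ≤ 1) ∧ 0 ≤ th2 R y ∧ th2 R y ≤ 1 :=
  ⟨⟨Real.smoothTransition.nonneg _, Real.smoothTransition.le_one _⟩,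
    Real.smoothTransition.nonneg _, Real.smoothTransition.le_one _⟩

theorem boot_mono {σ : Shrinker} {L R η η' M : ℝ} {φ w : ℝ → ℝ → ℝ} {s : ℝ}
    (h : Boot σ L R η M φ w s) (hη : η ≤ η') : Boot σ L R η' M φ w s :=
  ⟨h.small.trans hη, h.lower, h.upper, h.slope, h.cap⟩

/-- Outside the support nothing changes; inside the core formula applies. -/
theorem init_eq {σ : Shrinker} {L : ℝ} {P φ₀ : ℝ → ℝ} {φ w : ℝ → ℝ → ℝ} (hL : 0 < L)
    (hflow : IsFlow L 1 φ₀ φ) (hw : RelPot σ L φ w)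
    (hrefP : ∀ t ∈ Ico (0:ℝ) 1, IsProfile L (phiRef σ L t))
    (hrefS : Calc.Smooth2 (Ico 0 1) (Icc 0 L) (phiRef σ L))
    (hcore : ∀ v ∈ Ioo 0 (L / 4), φ₀ v = coreDatum σ P v)
    (hw0 : ∀ x ∈ Icc 0 L, w 0 x = P x) {y : ℝ} (hy : y ∈ Ioo 0 (L / 4)) :
    zOne w 0 y = z1f σ P (coreDatum σ P) y ∧ zTwo w 0 y = z2f σ P (coreDatum σ P) y := by
  have hev : ∀ᶠ v in 𝓝 y, φ₀ v = coreDatum σ P v :=
    (Ioo_mem_nhds hy.1 hy.2 : Ioo 0 (L / 4) ∈ 𝓝 y) |> Filter.eventually_of_mem <| hcore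
  have e2 : ∀ᶠ u in 𝓝 y, z1f σ P φ₀ u = z1f σ P (coreDatum σ P) u := by
    filter_upwards [hev.eventually_nhds] with u hu
    rw [z1f, z1f, Dict.dst_congr hu]
  have e3 : ∀ᶠ u in 𝓝 y, psi φ₀ u = psi (coreDatum σ P) u := by
    filter_upwards [hev.eventually_nhds] with u hu
    have hu' : φ₀ =ᶠ[𝓝 u] coreDatum σ P := hu
    have hs2 : scal φ₀ =ᶠ[𝓝 u] scal (coreDatum σ P) := by
      filter_upwards [hu'.eventuallyEq_nhds] with v hv
      rw [scal_eq, scal_eq, Dict.dst_congr hv]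
    rw [psi, psi, hu'.deriv_eq, hu'.self_of_nhds, Dict.deriv_deriv_congr hs2]
  refine ⟨(z1_at_zero hL hflow hw hrefP hrefS hw0 hy).trans e2.self_of_nhds, ?_⟩
  rw [z2_at_zero hL hflow hw hrefP hrefS hw0 hy]
  have e2' : z1f σ P φ₀ =ᶠ[𝓝 y] z1f σ P (coreDatum σ P) := e2
  unfold z2f drift
  rw [e2'.deriv_eq, e2'.self_of_nhds, Dict.dst_congr e3]

/-- A small perturbation of the shrinker core. -/
theorem core_ratio {F u : ℝ} (hF : 0 < F) (hu : |u| ≤ 1 / 8000) :
    F ≤ 2 * (F / (1 + u)) ∧ F / (1 + u) ≤ 2 * F ∧ |F / (1 + u) - F| ≤ F / 1000 := by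
  have hu' := abs_le.1 hu
  have hd : 0 < 1 + u := by linarith
  refine ⟨?_, ?_, ?_⟩
  · rw [← mul_div_assoc, le_div_iff₀ hd]
    nlinarith
  · rw [div_le_iff₀ hd]
    nlinarith
  · have hdd : F / (1 + u) - F = -(F * u) / (1 + u) := by field_simp; ring
    rw [hdd, abs_div, abs_neg, abs_mul, abs_of_pos hF, abs_of_pos hd, div_le_iff₀ hd]
    nlinarith [mul_le_mul_of_nonneg_left hu hF.le]

/-- The bootstrap at time zero for a small perturbation of the reference. -/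
theorem boot_zero {σ : Shrinker} {L R a b η M ε Cs : ℝ} {P : ℝ → ℝ} {φ w : ℝ → ℝ → ℝ}
    (hR : 0 < R) (hRL : 32 * R ≤ L) (hb : b ≤ L / 8) (hM : 1 ≤ M)
    (hCs : Cs + 1 ≤ M) (hε : ε ≤ 1 / 8000) (hP : Supp a b P)
    (hflow : IsFlow L 1 (datum σ L P) φ) (href : IsProfile L (phiRef σ L 0))
    (hprof : IsProfile L (datum σ L P))
    (hslope : ∀ x ∈ Ioo 0 L, |deriv (phiRef σ L 0) x| ≤ Cs)
    (hsm : ∀ y, 0 < y → |profF σ y * dd P y| ≤ ε ∧
      |deriv (coreDatum σ P) y - deriv (profF σ) y| ≤ ε)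
    (hsmall : normN L w 0 + normE R w 0 ≤ η) : Boot σ L R η (2 * M) φ w 0 := by
  have hL : 0 < L := by linarith
  have ev : ∀ x ∈ Ioo 0 L, rprof φ 0 x = datum σ L P x := fun x hx => by
    rw [rprof_zero, hflow.initial x (Ioo_subset_Icc_self hx)]
  have hratio : ∀ x ∈ Ioo 0 L, phiRef σ L 0 x ≤ 2 * datum σ L P x ∧
      datum σ L P x ≤ 2 * phiRef σ L 0 x ∧
      (x ≤ L / 4 → |datum σ L P x - profF σ x| ≤ profF σ x / 1000) := by
    intro x hx
    by_cases hxab : x ∈ Icc a b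
    · have hx4 : x ≤ L / 4 := by linarith [hxab.2]
      rw [phiRef_zero_inner σ hx4, datum_inner σ P hx4]
      obtain ⟨r1, r2, r3⟩ := core_ratio (profF_pos σ hx.1) ((hsm x hx.1).1.trans hε)
      exact ⟨r1, r2, fun _ => r3⟩
    · rw [datum_eq_ref hP hxab]
      have hr0 := href.pos x hx
      refine ⟨by linarith, by linarith, fun hx4 => ?_⟩
      rw [phiRef_zero_inner σ hx4, sub_self, abs_zero]
      exact div_nonneg (profF_nonneg σ hx.1.le) (by norm_num)
  refine ⟨hsmall, fun y hy => ?_, fun y hy => ?_, fun y hy => ?_, fun y hy => ?_⟩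
  · rw [Ys_zero] at hy
    rw [rprof_zero, ev y hy]
    have h1 := (hratio y hy).1
    have h2 := hprof.pos y hy
    nlinarith
  · rw [Ys_zero] at hy
    rw [rprof_zero (phiRef σ L), ev y hy]
    have h1 := (hratio y hy).2.1
    have h2 := href.pos y hy
    nlinarith
  · rw [Ys_zero] at hy
    have hd : rprof φ 0 =ᶠ[𝓝 y] datum σ L P :=
      Filter.eventually_of_mem (Ioo_mem_nhds hy.1 hy.2) ev
    rw [hd.deriv_eq]
    by_cases hyab : y ∈ Icc a b
    · have hy4 : y < L / 4 := by linarith [hyab.2]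
      have e : datum σ L P =ᶠ[𝓝 y] coreDatum σ P := by
        filter_upwards [Iio_mem_nhds hy4] with v hv
        exact datum_inner σ P hv.le
      have e' : phiRef σ L 0 =ᶠ[𝓝 y] profF σ := by
        filter_upwards [Iio_mem_nhds hy4] with v hv
        exact phiRef_zero_inner σ hv.le
      rw [e.deriv_eq]
      have h2 := hslope y hy
      rw [e'.deriv_eq] at h2
      have := abs_le.1 (hsm y hy.1).2
      have := abs_le.1 h2
      rw [abs_le]
      constructor <;> linarith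
    · have e : datum σ L P =ᶠ[𝓝 y] phiRef σ L 0 :=
        Filter.eventually_of_mem (isClosed_Icc.isOpen_compl.mem_nhds hyab) fun v hv =>
          datum_eq_ref hP hv
      rw [e.deriv_eq]
      exact (hslope y hy).trans (by linarith)
  · have hyL : y ∈ Ioo 0 L := ⟨hy.1, by linarith [hy.2]⟩
    rw [ev y hyL]
    exact (hratio y hyL).2.2 (by linarith [hy.2])

/-- The bootstrap package. -/
theorem run (hIE : Inner.InnerEnergyTarget) (hIS : Inner.InnerSupTarget)
    (hMid : Middle.MiddleTarget) (hRef : Middle.RefTarget) (hSl : RefSlope)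
    (hRP : Dict.RelPotTarget) (hInit : InitSmallTarget) : RunTarget := by
  intro σ
  obtain ⟨Ls, Cs, hLs, hslope⟩ := hSl σ
  obtain ⟨Lr, Cr, hLr, _, href⟩ := hRef σ
  obtain ⟨Lp, hLp, hpot⟩ := hRP σ
  obtain ⟨M, hMge, hM1, Rm, hRm, hmid⟩ := hMid hIS σ (max (Cs + 1) 2)
  obtain ⟨Re, hRe, henergy⟩ := hIE σ (2 * M)
  obtain ⟨Rs, hRs, hsup⟩ := hIS σ (2 * M)
  have hMCs : Cs + 1 ≤ M := (le_max_left _ _).trans hMge
  refine ⟨M, max Rm (max Re Rs), hM1, lt_max_of_lt_left hRm, fun R hR => ?_⟩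
  simp only [max_le_iff] at hR
  obtain ⟨hR1, hR2, hR3⟩ := hR
  have hRpos : 0 < R := hRm.trans_le hR1
  obtain ⟨ηm, Lm, hηm, hLm, hmid⟩ := hmid R hR1
  obtain ⟨ηe, Ce, Le, hηe, hCe, henergy⟩ := henergy R hR2
  obtain ⟨ηs, Cu, Lu, hηs, hCu, hsup⟩ := hsup R hR3
  obtain ⟨z, hz, hzmin⟩ := (isCompact_Icc (a := (0:ℝ)) (b := 8 * R)).exists_isMinOn
    (nonempty_Icc.2 (by linarith)) (σ.q_smooth.continuousOn.mono Icc_subset_Ici_self)
  have hqz : 0 < σ.q z := σ.q_pos z hz.1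
  set Cc := Cu * Real.sqrt (8 * R) / σ.q z with hCcdef
  have hCc : 0 < Cc := by positivity
  set κ := 1 / (2 * (3 * Ce + 1)) with hκdef
  have hκ : 0 < κ := by positivity
  set η₁ := min (min ηm ηe) (min ηs ((1 / (2000 * Cc)) ^ 2)) with hη₁def
  have hη₁ : 0 < η₁ := lt_min (lt_min hηm hηe) (lt_min hηs (by positivity))
  refine ⟨κ, Cc, η₁, hκ, hCc, hη₁, fun d a b p ha hb hp η hη hη1 => ?_⟩
  simp only [hη₁def, le_min_iff] at hη1
  obtain ⟨⟨hη_m, hη_e⟩, hη_s, hη_c⟩ := hη1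
  set ε := min (1 / 8000) (min 1 (min (Real.sqrt (η / 8)) (Real.sqrt (κ * η / 4)))) with hεdef
  have hε : 0 < ε := by positivity
  have hε1 : ε ≤ 1 / 8000 := min_le_left _ _
  have hε2 : ε ≤ 1 := (min_le_right _ _).trans (min_le_left _ _)
  have hε3 : 8 * ε ^ 2 ≤ η := by
    have : ε ≤ Real.sqrt (η / 8) :=
      (min_le_right _ _).trans ((min_le_right _ _).trans (min_le_left _ _))
    have := (Real.le_sqrt hε.le (by positivity)).1 this
    linarith
  have hε4 : 4 * ε ^ 2 ≤ κ * η := by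
    have : ε ≤ Real.sqrt (κ * η / 4) :=
      (min_le_right _ _).trans ((min_le_right _ _).trans (min_le_right _ _))
    have := (Real.le_sqrt hε.le (by positivity)).1 this
    linarith
  obtain ⟨r₀, hr₀, hinit⟩ := hInit σ d a b p ha hp ε hε
  -- a bound on the potentials themselves
  obtain ⟨B, hB⟩ := (isCompact_Icc (a := a) (b := b)).exists_bound_of_continuousOn
    (f := fun y => ∑ i, |p i y|)
    (continuous_finsetSum _ fun i _ => ((hp i).smooth.continuous.abs)).continuousOn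
  set r := min r₀ (ε / (|B| + 1)) with hrdef
  have hr : 0 < r := lt_min hr₀ (by positivity)
  set L₀ := max (max (max Ls Lr) (max Lp Lm)) (max (max Le Lu) (max (128 * R)
    (Real.sqrt (1 / (κ * η))))) with hL₀def
  refine ⟨r, L₀, hr, lt_max_of_lt_left (lt_max_of_lt_left (lt_max_of_lt_left hLs)),
    fun L hL => ?_⟩
  simp only [hL₀def, max_le_iff] at hL
  obtain ⟨⟨⟨hLs', hLr'⟩, hLp', hLm'⟩, ⟨hLe', hLu'⟩, hLR, hLη⟩ := hL
  have hLpos : 0 < L := hLs.trans_le hLs'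
  obtain ⟨hrefP, hrefS, -⟩ := href L hLr'
  have hb4 : b ≤ L / 4 := by linarith
  have hcore : ∀ c, ‖c‖ ≤ r → ∀ x ∈ Ioc 0 (L / 4),
      datum σ L (comb p c) x = coreDatum σ (comb p c) x := fun c _ x hx =>
    datum_inner σ _ hx.2
  have hsmallu : ∀ c, ‖c‖ ≤ r → ∀ x ∈ Icc a b, |profF σ x * dd (comb p c) x| ≤ 1 / 2 := by
    intro c hc x hx
    have := (hinit c (hc.trans (min_le_left _ _)) x (ha.trans_le hx.1)).1
    linarith
  refine ⟨by linarith, hrefP, hrefS,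
    fun t ht x hx => (hslope L hLs' t ht x hx).trans (by linarith),
    fun c hc => isProfile_datum hLpos ha hb4 (comb_supp hp c) (hrefP 0 ⟨le_rfl, one_pos⟩)
      (hsmallu c hc), fun c hc φ hflow => ?_⟩
  have hP := comb_supp hp c
  have href0 := hrefP 0 ⟨le_rfl, one_pos⟩
  have hprof := isProfile_datum hLpos ha hb4 hP href0 (hsmallu c hc)
  obtain ⟨w, hw, hw0⟩ := hpot L hLp' _ (comb p c) φ hflow hP.smooth
    fun x hx => datum_second hb4 hP href0 (hsmallu c hc) hx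
  -- closeness from the static inner bound
  have hclose : ∀ s : ℝ, 0 ≤ s → Boot σ L R η (2 * M) φ w s →
      ∀ y ∈ Ioo 0 (8 * R), |rprof φ s y - profF σ y| ≤ Cc * Real.sqrt η * profF σ y := by
    intro s hs hboot y hy
    have h1 := (hsup L hLu' _ φ w hflow hw s hs (boot_mono hboot hη_s) y hy).1
    refine h1.trans ?_
    have he : Real.sqrt (normN L w s + normE R w s) ≤ Real.sqrt η :=
      Real.sqrt_le_sqrt hboot.small
    have hq : σ.q z ≤ σ.q y := hzmin (Ioo_subset_Icc_self hy)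
    have hy8 : Real.sqrt y ≤ Real.sqrt (8 * R) := Real.sqrt_le_sqrt hy.2.le
    have hy0 : 0 ≤ y := hy.1.le
    calc Cu * Real.sqrt (normN L w s + normE R w s) * (y * Real.sqrt y)
        ≤ Cu * Real.sqrt η * (y * Real.sqrt (8 * R)) := by gcongr
      _ = Cc * Real.sqrt η * (y * σ.q z) := by rw [hCcdef]; field_simp
      _ ≤ Cc * Real.sqrt η * profF σ y := by rw [profF]; gcongr
  refine ⟨w, hw, hw0, ?_, hclose⟩
  -- the initial bootstrap
  have hI := hinit c (hc.trans (min_le_left _ _))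
  have hW0 : ∀ y ∈ Ioo 0 (Ys L 0), |snap w 0 y| ≤ ε := by
    intro y hy
    rw [Ys_zero] at hy
    rw [snap_zero, hw0 y (Ioo_subset_Icc_self hy)]
    by_cases hyab : y ∈ Icc a b
    · refine (abs_comb_le p c y).trans ?_
      have hBy : ∑ i, |p i y| ≤ |B| + 1 := by
        have := hB y hyab
        rw [Real.norm_eq_abs, abs_of_nonneg (Finset.sum_nonneg fun i _ => abs_nonneg _)] at this
        linarith [le_abs_self B]
      calc ‖c‖ * ∑ i, |p i y| ≤ (ε / (|B| + 1)) * (|B| + 1) :=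
            mul_le_mul (hc.trans (min_le_right _ _)) hBy
              (Finset.sum_nonneg fun i _ => abs_nonneg _) (by positivity)
        _ = ε := by field_simp
    · rw [hP.zero y hyab, abs_zero]; exact hε.le
  have hN0 : normN L w 0 ≤ 2 * ε ^ 2 :=
    wsq_le_of_bound (Ys_pos hLpos 0).le (fun _ => zero_le_one) (fun _ => le_rfl) hW0
  have hzero : ∀ y ∈ Ioo 0 (L / 4),
      zOne w 0 y = z1f σ (comb p c) (coreDatum σ (comb p c)) y ∧
      zTwo w 0 y = z2f σ (comb p c) (coreDatum σ (comb p c)) y := fun y hy =>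
    init_eq hLpos hflow hw hrefP hrefS (fun v hv => hcore c hc v ⟨hv.1, hv.2.le⟩) hw0 hy
  have hE0 : normE R w 0 ≤ 4 * ε ^ 2 := by
    have h1 := wsq_le_of_bound (p := 8) (κ := th1 R) (V := zOne w 0)
      (by linarith : (0:ℝ) ≤ 32 * R) (fun y => (th_bounds R y).1.1) (fun y => (th_bounds R y).1.2)
      (e := ε) fun y hy => by
        rw [(hzero y ⟨hy.1, by linarith [hy.2]⟩).1]; exact (hI y hy.1).2.2.1
    have h2 := wsq_le_of_bound (p := 8) (κ := th2 R) (V := zTwo w 0)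
      (by linarith : (0:ℝ) ≤ 16 * R) (fun y => (th_bounds R y).2.1) (fun y => (th_bounds R y).2.2)
      (e := ε) fun y hy => by
        rw [(hzero y ⟨hy.1, by linarith [hy.2]⟩).2]; exact (hI y hy.1).2.2.2.1
    show wsq _ _ _ _ _ + wsq _ _ _ _ _ ≤ _
    linarith
  have hboot0 : Boot σ L R η (2 * M) φ w 0 :=
    boot_zero hRpos (by linarith) (by linarith) hM1.le hMCs hε1 hP hflow href0 hprof
      (fun x hx => hslope L hLs' 0 ⟨le_rfl, one_pos⟩ x hx)
      (fun y hy => ⟨(hI y hy).1, (hI y hy).2.1⟩) (by linarith)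
  intro S hS
  refine boot_forever hLpos hRpos (by linarith) hflow hw hrefP hrefS hη hM1.le hboot0 ?_
  intro s hs hall
  have hNr : ∀ v ∈ Icc 0 s, normN L w v ≤ κ * η := fun v hv =>
    hS v ⟨hv.1, hv.2.trans hs.2⟩ fun u hu => hall u ⟨hu.1, hu.2.trans hv.2⟩
  have hE := henergy L hLe' _ φ w hflow hw s (κ * η) hs.1
    fun v hv => ⟨boot_mono (hall v hv) hη_e, hNr v hv⟩
  have hLinv : 1 / L ^ 2 ≤ κ * η := by
    have h1 : 1 / (κ * η) ≤ L ^ 2 := by
      have := pow_le_pow_left₀ (Real.sqrt_nonneg _) hLη 2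
      rwa [Real.sq_sqrt (by positivity)] at this
    rw [div_le_iff₀ (by positivity)]
    rw [div_le_iff₀ (by positivity)] at h1
    linarith
  have hmid' := hmid L hLm' _ φ w hflow hw
    (fun x hx => by rw [datum, hP.dd_zero_of_le (hb.trans hx.1)]; simp) s hs.1
    fun v hv => boot_mono (hall v hv) hη_m
  refine ⟨?_, fun y hy => (hmid' y hy).1, fun y hy => (hmid' y hy).2.1,
    fun y hy => (hmid' y hy).2.2, fun y hy => ?_⟩
  · have hNs := hNr s ⟨hs.1, le_rfl⟩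
    have h3 : normE R w s ≤ Ce * (3 * (κ * η)) :=
      hE.trans (mul_le_mul_of_nonneg_left (by linarith) hCe.le)
    have : (3 * Ce + 1) * (κ * η) = η / 2 := by rw [hκdef]; field_simp
    linarith
  · refine (hclose s hs.1 (hall s ⟨hs.1, le_rfl⟩) y hy).trans ?_
    have hs1 : Cc * Real.sqrt η ≤ 1 / 2000 := by
      have h := Real.sqrt_le_sqrt hη_c
      rw [Real.sqrt_sq (by positivity)] at h
      calc Cc * Real.sqrt η ≤ Cc * (1 / (2000 * Cc)) := mul_le_mul_of_nonneg_left h hCc.le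
        _ = 1 / 2000 := by field_simp
    have := mul_le_mul_of_nonneg_right hs1 (profF_nonneg σ hy.1.le)
    linarith

end Vale.Agent.P264.Assembly
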