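import Vale.Agent.P264.Assembly.Main
import Vale.Agent.P264.Assembly.Run

/-!
Linearised trajectories from flows: the difference quotient of the flows of `e * p` and of `0`.
-/

namespace Vale.Agent.P264.Assembly

open Set Filter MeasureTheory
open scoped ContDiff Topology
open LinOp

theorem deriv_const_mul' (c : ℝ) (g : ℝ → ℝ) :
    deriv (fun z => c * g z) = fun z => c * deriv g z :=
  funext fun _ => deriv_const_mul_field c

theorem dst_const_mul (c : ℝ) (g : ℝ → ℝ) (y : ℝ) : dst (fun z => c * g z) y = c * dst g y := by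
  have e : (fun z => z ^ 7 * (c * g z)) = fun z => c * (z ^ 7 * g z) := funext fun z => by ring
  unfold dst
  rw [e, deriv_const_mul', deriv_const_mul', mul_div_assoc]

/-- A multiple of a homogeneous potential. -/
theorem pot_smul {L : ℝ} {a w : ℝ → ℝ → ℝ} (h : Pot L a (fun _ _ => 0) w) (c : ℝ) :
    Pot L a (fun _ _ => 0) (fun t x => c * w t x) := by
  refine ⟨contDiffOn_const.mul h.smooth, fun t ht x hx => ?_⟩
  have e1 : deriv (fun r => c * w r x) t = c * deriv (fun r => w r x) t := deriv_const_mul_field c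
  have e : (fun z => a t z * deriv (deriv fun x => c * w t x) z)
      = fun z => c * (a t z * deriv (deriv (w t)) z) := by
    funext z
    rw [deriv_const_mul', deriv_const_mul']
    ring
  rw [e1, e, dst_const_mul, h.eqn t ht x hx]
  ring

/-- Homogeneous potentials with good coefficient and prescribed test data exist if every datum
has a flow. -/
theorem exist (hrun : RunTarget) (hdiff : Dict.DiffPotTarget) (hgrow : Grows) :
    ExistFromFlows := by
  intro hall σ
  obtain ⟨M, R₀, hM, hR₀, hrun⟩ := hrun σ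
  refine ⟨(2 * M) ^ 2 + 4 * (2 * M) ^ 2 * (2 * M) ^ 2, fun M' hM' => ?_⟩
  intro p hp δ T hδ hT
  obtain ⟨hps, a, b, ha, hab, hp0⟩ := hp
  obtain ⟨Cp, hCp⟩ := isCompact_Icc.exists_bound_of_continuousOn
    (hps.continuous.continuousOn (s := Icc a b))
  obtain ⟨Rg, hRg, hgrow⟩ := hgrow σ (2 * M)
  have hδ1 : 0 < 1 / δ := by positivity
  set R := R₀ + Rg + b + 1 / δ with hR
  have hRpos : 0 < R := by linarith
  obtain ⟨κ, Cc, η₁, hκ, hCc, hη₁, hrun⟩ := hrun R (by linarith)
  obtain ⟨ηg, K, Cg, Lg, hηg, hK, hCg, hgrow⟩ := hgrow R (by linarith)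
  set η := min (min η₁ ηg) ((min 1 δ / (3 * Cc)) ^ 2) with hη
  have hηpos : 0 < η := lt_min (lt_min hη₁ hηg) (by positivity)
  have hη1 : η ≤ η₁ := (min_le_left _ _).trans (min_le_left _ _)
  have hηg' : η ≤ ηg := (min_le_left _ _).trans (min_le_right _ _)
  set e := Cc * Real.sqrt η with he
  have he0 : 0 ≤ e := by positivity
  have he3 : 3 * e ≤ min 1 δ := by
    have h := Real.sqrt_le_sqrt (min_le_right (min η₁ ηg) ((min 1 δ / (3 * Cc)) ^ 2))
    rw [Real.sqrt_sq (by positivity), le_div_iff₀ (by positivity)] at h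
    calc 3 * e = Real.sqrt η * (3 * Cc) := by rw [he]; ring
      _ ≤ min 1 δ := h
  have he1 : e ≤ 1 := by linarith [he3.trans (min_le_left 1 δ)]
  have heδ : 3 * e ≤ δ := he3.trans (min_le_right _ _)
  obtain ⟨r, L₀, hr, hL₀, hdata⟩ :=
    hrun 1 a b (fun _ => p) ha (by linarith) (fun _ => ⟨hps, hp0⟩) η hηpos hη1
  set G := Real.exp (K * T) with hG
  set P := 1 + |Cp| with hP
  set ε := min r (Real.sqrt (κ * η / (4 * G)) / P) with hε
  have hεpos : 0 < ε := by positivity
  have hεr : ε ≤ r := min_le_left _ _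
  have hεN : G * (2 * (ε * P) ^ 2) ≤ κ * η / 2 := by
    have h : ε * P ≤ Real.sqrt (κ * η / (4 * G)) :=
      (le_div_iff₀ (by positivity)).1 (min_le_right _ _)
    have h2 := (Real.le_sqrt (by positivity) (by positivity)).1 h
    calc G * (2 * (ε * P) ^ 2) ≤ G * (2 * (κ * η / (4 * G))) := by gcongr
      _ = κ * η / 2 := by
          have hG0 : G ≠ 0 := (Real.exp_pos _).ne'
          field_simp; ring
  set L := max (max (max L₀ Lg) 4) (max (32 * R) (Real.sqrt (2 * G * Cg / (κ * η)))) with hLdef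
  have hL0' : L₀ ≤ L := le_max_of_le_left (le_max_of_le_left (le_max_left _ _))
  have hLg' : Lg ≤ L := le_max_of_le_left (le_max_of_le_left (le_max_right _ _))
  have hL4 : 4 ≤ L := le_max_of_le_left (le_max_right _ _)
  have hLR : 32 * R ≤ L := le_max_of_le_right (le_max_left _ _)
  have hLS : Real.sqrt (2 * G * Cg / (κ * η)) ≤ L := le_max_of_le_right (le_max_right _ _)
  have hLpos : 0 < L := by linarith
  have hLgrow : G * (Cg / L ^ 2) ≤ κ * η / 2 := by
    have h := pow_le_pow_left₀ (Real.sqrt_nonneg _) hLS 2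
    rw [Real.sq_sqrt (by positivity), div_le_iff₀ (by positivity)] at h
    rw [← mul_div_assoc, div_le_iff₀ (by positivity)]
    linarith
  obtain ⟨-, -, hrefS, -, hprof, hflow⟩ := hdata L hL0'
  obtain ⟨-, hrefP, -, -, -, -⟩ := hdata L hL0'
  have hbound : ∀ (c : Fin 1 → ℝ), ‖c‖ ≤ ε → ∀ y, |comb (fun _ => p) c y| ≤ ε * P := by
    intro c hc y
    refine (abs_comb_le _ c y).trans (mul_le_mul hc ?_ (by positivity) hεpos.le)
    simp only [Finset.univ_unique, Finset.sum_singleton]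
    by_cases hy : y ∈ Icc a b
    · have h1 := hCp y hy
      rw [Real.norm_eq_abs] at h1
      linarith [le_abs_self Cp]
    · rw [hp0 y hy, abs_zero]; positivity
  -- the flow of a small multiple stays in the bootstrap up to `T`
  have hpiece : ∀ (c : Fin 1 → ℝ), ‖c‖ ≤ ε → ∃ φ w : ℝ → ℝ → ℝ,
      Traj σ L R η M κ e (datum σ L (comb (fun _ => p) c)) (comb (fun _ => p) c) φ w ∧
        ∀ s ∈ Icc (0:ℝ) (0 + T), Boot σ L R η (2 * M) φ w s := by
    intro c hc
    obtain ⟨φ, hφ⟩ := hall L _ hLpos (hprof c (hc.trans hεr))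
    obtain ⟨w, hw1, hw2, hw3, hw4⟩ := hflow c (hc.trans hεr) φ hφ
    refine ⟨φ, w, ⟨hφ, hw1, hw2, hw3, hw4⟩, ?_⟩
    rw [zero_add]
    refine hw3 T fun s hs hbs => ?_
    have hN0 : normN L w 0 ≤ 2 * (ε * P) ^ 2 := by
      unfold normN
      rw [Ys_zero]
      refine wsq_le_of_bound hLpos.le (fun _ => zero_le_one) (fun _ => le_rfl) fun y hy => ?_
      rw [snap_zero, hw2 y (Ioo_subset_Icc_self hy)]
      exact hbound c hc y
    have hN := hgrow L hLg' _ φ w hφ hw1 0 s le_rfl hs.1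
      fun v hv => boot_mono (hbs v hv) hηg'
    calc normN L w s ≤ Real.exp (K * (s - 0)) * (normN L w 0 + Cg / L ^ 2) := hN
      _ ≤ Real.exp (K * (s - 0)) * (2 * (ε * P) ^ 2 + Cg / L ^ 2) := by gcongr
      _ ≤ G * (2 * (ε * P) ^ 2 + Cg / L ^ 2) := by
          rw [hG, sub_zero]; gcongr; exact hs.2
      _ ≤ κ * η := by rw [mul_add]; linarith
  have hn : ‖(fun _ => ε : Fin 1 → ℝ)‖ ≤ ε := by
    rw [pi_norm_const, Real.norm_eq_abs, abs_of_pos hεpos]
  obtain ⟨φ₁, w₁, hT₁, hB₁⟩ := hpiece _ hn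
  obtain ⟨φ₂, w₂, hT₂, hB₂⟩ := hpiece 0 (by rw [norm_zero]; exact hεpos.le)
  have hgood := good_mono (good_pair hT₁ hT₂ hM.le hδ he0 he1 heδ le_rfl (by linarith)
    (by linarith) hB₁ hB₂) hM'
  have hpot := hdiff σ L _ _ _ _ _ _ hLpos hT₁.flow hT₂.flow hrefS
    (fun t ht x hx => (hrefP t ht).pos x hx) hT₁.pot hT₂.pot
  refine ⟨L, _, fun t x => ε⁻¹ * (w₁ t x - w₂ t x), pot_smul hpot ε⁻¹, hgood,
    fun y hy => hp0 y fun h => ?_, fun x hx => ?_⟩
  · linarith [h.2]
  · show ε⁻¹ * (w₁ 0 x - w₂ 0 x) = p x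
    rw [hT₁.init x hx, hT₂.init x hx]
    simp [comb, hεpos.ne']

end Vale.Agent.P264.Assembly
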