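import Vale.Agent.P264.Assembly.InitTargets

/-!
The bootstrap, packaged: small combinations of fixed test potentials stay in the bootstrap as
long as the main norm is small.
-/

namespace Vale.Agent.P264.Assembly

open Set
open scoped ContDiff

/-- What the bootstrap delivers at one scale `R` for one family of test potentials. -/
structure RunData (σ : Shrinker) (M R κ Cc η : ℝ) {d : ℕ} (p : Fin d → ℝ → ℝ) (r L : ℝ) :
    Prop where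
  long : 32 * R ≤ L
  ref_profile : ∀ t ∈ Ico (0:ℝ) 1, IsProfile L (phiRef σ L t)
  ref_smooth : ContDiffOn ℝ ∞ (Function.uncurry (phiRef σ L)) (Ico 0 1 ×ˢ Icc 0 L)
  ref_slope : ∀ t ∈ Ico (0:ℝ) 1, ∀ x ∈ Ioo 0 L, |deriv (phiRef σ L t) x| ≤ 2 * M
  datum_profile : ∀ c : Fin d → ℝ, ‖c‖ ≤ r → IsProfile L (datum σ L (comb p c))
  flow : ∀ c : Fin d → ℝ, ‖c‖ ≤ r → ∀ φ, IsFlow L 1 (datum σ L (comb p c)) φ →
    ∃ w, RelPot σ L φ w ∧ (∀ x ∈ Icc 0 L, w 0 x = comb p c x) ∧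
      (∀ S : ℝ, (∀ s ∈ Icc 0 S, (∀ v ∈ Icc 0 s, Boot σ L R η (2 * M) φ w v) →
          normN L w s ≤ κ * η) →
        ∀ s ∈ Icc 0 S, Boot σ L R η (2 * M) φ w s) ∧
      (∀ s : ℝ, 0 ≤ s → Boot σ L R η (2 * M) φ w s →
        ∀ y ∈ Ioo 0 (8 * R), |rprof φ s y - profF σ y| ≤ Cc * Real.sqrt η * profF σ y)

/-- Existence of the package for all large scales, small `η` and long intervals. -/
def RunTarget : Prop :=
  ∀ σ : Shrinker, ∃ M R₀ : ℝ, 1 < M ∧ 0 < R₀ ∧ ∀ R : ℝ, R₀ ≤ R →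
    ∃ κ Cc η₁ : ℝ, 0 < κ ∧ 0 < Cc ∧ 0 < η₁ ∧
      ∀ (d : ℕ) (a b : ℝ) (p : Fin d → ℝ → ℝ), 0 < a → b ≤ R → (∀ i, Supp a b (p i)) →
        ∀ η : ℝ, 0 < η → η ≤ η₁ → ∃ r L₀ : ℝ, 0 < r ∧ 0 < L₀ ∧ ∀ L : ℝ, L₀ ≤ L →
          RunData σ M R κ Cc η p r L

/-- Every datum has a flow: the negation of `Disproof`. -/
def AllFlows : Prop :=
  ∀ (L : ℝ) (φ₀ : ℝ → ℝ), 0 < L → IsProfile L φ₀ → ∃ φ, IsFlow L 1 φ₀ φ

end Vale.Agent.P264.Assembly
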