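import Vale.Agent.P264.Assembly.Good
import Vale.Agent.P264.Assembly.RunTargets
import Vale.Agent.P264.Assembly.GrowthTargets
import Vale.Agent.P264.Assembly.Cont
import Vale.Agent.P264.Dict.ScalExt
import Vale.Agent.P264.Abstract.Targets

/-!
Pieces used when the trap is assembled.
-/

namespace Vale.Agent.P264.Assembly

open Set Filter MeasureTheory
open scoped ContDiff Topology
open LinOp

theorem state_finset_sum {ι : Type} {Y : ℝ} (s : Finset ι) (c : ι → ℝ) (p : ι → ℝ → ℝ)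
    (hp : ∀ i, ContinuousOn (p i) (Icc 0 Y)) :
    state Y (fun y => ∑ i ∈ s, c i * p i y) = ∑ i ∈ s, c i • state Y (p i) := by
  classical
  induction s using Finset.induction_on with
  | empty =>
    simp only [Finset.sum_empty]
    refine Lp.ext ((state_coe continuousOn_const).trans ?_)
    refine EventuallyEq.trans (g := fun _ => (0:ℝ)) ?_ (Lp.coeFn_zero _ _ _).symm
    exact Eventually.of_forall fun y => by simp
  | insert a s ha ih =>
    simp only [Finset.sum_insert ha]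
    have e := state_add (V := fun y => c a * p a y) (W := fun y => ∑ i ∈ s, c i * p i y)
      (continuousOn_const.mul (hp a))
      (continuousOn_finsetSum s fun i _ => continuousOn_const.mul (hp i))
    rw [e, state_smul (c a) (hp a), ih]

theorem state_of_test {Y : ℝ} {x : H} {p : ℝ → ℝ} (hx : (x : ℝ → ℝ) =ᵐ[μ5] p)
    (hp : ContinuousOn p (Icc 0 Y)) (hsupp : ∀ y, y ∉ Icc 0 Y → p y = 0) : state Y p = x := by
  refine Lp.ext ((state_coe hp).trans (EventuallyEq.trans ?_ hx.symm))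
  refine Eventually.of_forall fun y => ?_
  by_cases hy : y ∈ Icc 0 Y
  · simp [hy]
  · simp [hy, hsupp y hy]

/-- A finite family of test potentials whose images in the quotient form a basis. -/
theorem exists_basis {B : H →L[ℝ] H} {ρ ρ' : ℝ} (S : Abstract.Splitting H B ρ ρ') :
    ∃ (a b : ℝ) (p : Fin S.d → ℝ → ℝ) (J : (Fin S.d → ℝ) →L[ℝ] H),
      0 < a ∧ 0 < b ∧ (∀ i, Supp a b (p i)) ∧
      Function.Bijective (fun u => S.P (J u)) ∧
      ∀ L, b ≤ L → ∀ c, state L (comb p c) = J c := by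
  classical
  set ε := 1 / (2 * ((‖S.P‖ + 1) * (S.d + 1))) with hεdef
  have hε : 0 < ε := by positivity
  have hex : ∀ i : Fin S.d, ∃ x : H, ‖x - S.σ (Pi.single i 1)‖ ≤ ε ∧
      ∃ p : ℝ → ℝ, IsTest p ∧ (x : ℝ → ℝ) =ᵐ[μ5] p := by
    intro i
    obtain ⟨x, hxball, hxmem⟩ :=
      Metric.dense_iff.1 testSubmodule_dense (S.σ (Pi.single i 1)) ε hε
    refine ⟨x, ?_, hxmem⟩
    rw [Metric.mem_ball, dist_eq_norm] at hxball
    exact hxball.le
  choose x hx p hp hxp using hex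
  choose lo hi hlo hlohi hsupp using fun i => (hp i).2
  obtain ⟨a, ha, ha'⟩ : ∃ a : ℝ, 0 < a ∧ ∀ i, a ≤ lo i := by
    rcases isEmpty_or_nonempty (Fin S.d) with h | h
    · exact ⟨1, one_pos, fun i => isEmptyElim i⟩
    · obtain ⟨i, hi'⟩ := Finite.exists_min lo
      exact ⟨lo i, hlo i, hi'⟩
  set b := 1 + ∑ i, |hi i| with hbdef
  have hb : 0 < b := by positivity
  have hb' : ∀ i, hi i ≤ b := fun i => by
    have := Finset.single_le_sum (f := fun i => |hi i|) (fun i _ => abs_nonneg _) (Finset.mem_univ i)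
    linarith [le_abs_self (hi i)]
  let J : (Fin S.d → ℝ) →L[ℝ] H :=
    LinearMap.toContinuousLinearMap (Fintype.linearCombination ℝ x)
  have hJ : ∀ c, J c = ∑ i, c i • x i := fun c => Fintype.linearCombination_apply ℝ x c
  refine ⟨a, b, p, J, ha, hb, fun i => ⟨(hp i).1, fun y hy => ?_⟩, ?_, fun L hL c => ?_⟩
  · exact hsupp i y fun hm => hy ⟨(ha' i).trans hm.1, hm.2.trans (hb' i)⟩
  · -- a perturbation of the identity
    have hclose : ∀ c, ‖S.P (J c) - c‖ ≤ 1 / 2 * ‖c‖ := by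
      intro c
      have e : c = ∑ i, c i • (Pi.single i 1 : Fin S.d → ℝ) := by
        funext j; simp [Finset.sum_apply, Pi.single_apply]
      have e2 : S.P (J c) - c = ∑ i, c i • S.P (x i - S.σ (Pi.single i 1)) := by
        conv_lhs => arg 2; rw [e]
        rw [hJ, map_sum, ← Finset.sum_sub_distrib]
        exact Finset.sum_congr rfl fun i _ => by rw [map_smul, map_sub, S.right_inv, smul_sub]
      rw [e2]
      calc ‖∑ i, c i • S.P (x i - S.σ (Pi.single i 1))‖
          ≤ ∑ _i : Fin S.d, ‖c‖ * ((‖S.P‖ + 1) * ε) := by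
            refine (norm_sum_le _ _).trans (Finset.sum_le_sum fun i _ => ?_)
            rw [norm_smul]
            refine mul_le_mul (norm_le_pi_norm c i) ?_ (norm_nonneg _) (norm_nonneg _)
            exact (S.P.le_opNorm _).trans (mul_le_mul (by linarith) (hx i) (norm_nonneg _)
              (by positivity))
        _ = (S.d : ℝ) / (S.d + 1) * (1 / 2 * ‖c‖) := by
            rw [Finset.sum_const, Finset.card_univ, Fintype.card_fin, nsmul_eq_mul, hεdef]
            field_simp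
        _ ≤ 1 / 2 * ‖c‖ := by
            refine mul_le_of_le_one_left (by positivity) ?_
            rw [div_le_one (by positivity)]; linarith
    have hinj : Function.Injective (S.P.comp J).toLinearMap := by
      rw [injective_iff_map_eq_zero]
      intro c hc
      have h := hclose c
      rw [show S.P (J c) = 0 from hc, zero_sub, norm_neg] at h
      exact norm_le_zero_iff.1 (by linarith [norm_nonneg c])
    exact ⟨hinj, LinearMap.surjective_of_injective hinj⟩
  · rw [hJ]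
    unfold comb
    rw [state_finset_sum _ _ _ fun i => (hp i).1.continuous.continuousOn]
    refine Finset.sum_congr rfl fun i _ => ?_
    rw [state_of_test (hxp i) (hp i).1.continuous.continuousOn fun y hy => ?_]
    exact hsupp i y fun hm => hy ⟨(hlo i).le.trans hm.1, (hm.2.trans (hb' i)).trans hL⟩

theorem snap_continuousOn {L s : ℝ} {w : ℝ → ℝ → ℝ}
    (hw : Calc.Smooth2 (Ico 0 1) (Icc 0 L) w) (hs : 0 ≤ s) :
    ContinuousOn (snap w s) (Icc 0 (Ys L s)) :=
  continuousOn_const.mul ((hw.slice_x (tof_mem hs)).continuousOn.comp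
    (continuousOn_const.mul continuousOn_id) fun _ hy => x_mem_Icc hy)

theorem stateAt_sq {L s : ℝ} (hL : 0 < L) {w : ℝ → ℝ → ℝ}
    (hw : Calc.Smooth2 (Ico 0 1) (Icc 0 L) w) (hs : 0 ≤ s) :
    ‖stateAt L w s‖ ^ 2 = normN L w s :=
  norm_state_sq (Ys_pos hL s).le (snap_continuousOn hw hs)

theorem stateAt_sub {L s : ℝ} {v w : ℝ → ℝ → ℝ} (hv : Calc.Smooth2 (Ico 0 1) (Icc 0 L) v)
    (hw : Calc.Smooth2 (Ico 0 1) (Icc 0 L) w) (hs : 0 ≤ s) :
    stateAt L (fun t x => v t x - w t x) s = stateAt L v s - stateAt L w s := by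
  unfold stateAt
  rw [← state_sub (snap_continuousOn hv hs) (snap_continuousOn hw hs)]
  congr 1
  funext y
  simp [snap, mul_sub]

theorem stateAt_zero {L : ℝ} {w : ℝ → ℝ → ℝ} {p : ℝ → ℝ} (hp : ContinuousOn p (Icc 0 L))
    (hw : Calc.Smooth2 (Ico 0 1) (Icc 0 L) w) (h0 : ∀ x ∈ Icc 0 L, w 0 x = p x) :
    stateAt L w 0 = state L p := by
  have hc := snap_continuousOn hw le_rfl
  unfold stateAt
  rw [Ys_zero] at hc ⊢
  refine Lp.ext ((state_coe hc).trans (EventuallyEq.trans ?_ (state_coe hp).symm))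
  refine Eventually.of_forall fun y => ?_
  by_cases hy : y ∈ Icc 0 L
  · simp [hy, snap_zero, h0 y hy]
  · simp [hy]

/-- The defect of the reference as a forcing on a window. -/
theorem forced_ref {σ : Shrinker} {L C : ℝ} (hL : 4 ≤ L) (hC : 0 ≤ C)
    (hf : ∀ t ∈ Ico (0:ℝ) 1, ∀ x ∈ Ioo 0 L, |fRef σ L t x| ≤ C / L ∧
      (x < L / 4 → fRef σ L t x = 0)) {s₀ T : ℝ} (hs₀ : 0 ≤ s₀) :
    Forced (Real.exp (-s₀ / 2) * (C / L)) L (fRef σ L) s₀ T := by
  refine ⟨by positivity, fun s hs y hy => ?_⟩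
  have hs' : 0 ≤ s := hs₀.trans hs.1
  obtain ⟨h1, h2⟩ := hf (tof s) (tof_mem hs') _ (x_mem_Ioo hy)
  by_cases hx : Real.exp (-s / 2) * y < L / 4
  · rw [h2 hx, mul_zero]
    simp only [ne_eq, OfNat.ofNat_ne_zero, not_false_eq_true, zero_pow, mul_zero, zero_mul]
    positivity
  have hy1 : 1 ≤ y := by
    have := x_le hy.1.le hs'
    linarith [not_lt.1 hx]
  have hrho : rho 5 y * (1 + y ^ 2) ≤ 1 := by
    unfold rho
    rw [div_mul_eq_mul_div, div_le_one (by positivity)]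
    calc y ^ 3 * (1 + y ^ 2) ≤ (1 + y ^ 2) ^ 4 * (1 + y ^ 2) := by
          refine mul_le_mul_of_nonneg_right ?_ (by positivity)
          calc y ^ 3 ≤ (y ^ 2) ^ 4 := by
                rw [← pow_mul]; exact pow_le_pow_right₀ hy1 (by norm_num)
            _ ≤ (1 + y ^ 2) ^ 4 := pow_le_pow_left₀ (sq_nonneg y) (by linarith) 4
      _ = (1 + y ^ 2) ^ 5 := by ring
  have hfs : |Real.exp (-s / 2) * fRef σ L (tof s) (Real.exp (-s / 2) * y)|
      ≤ Real.exp (-s₀ / 2) * (C / L) := by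
    rw [abs_mul, abs_of_pos (Real.exp_pos _)]
    exact mul_le_mul (Real.exp_le_exp.2 (by linarith [hs.1])) h1 (abs_nonneg _) (Real.exp_pos _).le
  calc rho 5 y * (Real.exp (-s / 2) * fRef σ L (tof s) (Real.exp (-s / 2) * y)) ^ 2 * (1 + y ^ 2)
      = (rho 5 y * (1 + y ^ 2))
          * (Real.exp (-s / 2) * fRef σ L (tof s) (Real.exp (-s / 2) * y)) ^ 2 := by ring
    _ ≤ 1 * (Real.exp (-s₀ / 2) * (C / L)) ^ 2 :=
        mul_le_mul hrho (sq_le_sq' (abs_le.1 hfs).1 (abs_le.1 hfs).2) (sq_nonneg _) zero_le_one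
    _ = _ := one_mul _

/-- A flow cannot follow the neck of the shrinker up to the final time. -/
theorem no_neck {L : ℝ} (hL : 0 < L) {φ₀ : ℝ → ℝ} {φ : ℝ → ℝ → ℝ} (h : IsFlow L 1 φ₀ φ)
    {y₀ : ℝ} (hy : 0 < y₀) : ¬ ∀ s : ℝ, 0 ≤ s → rprof φ s y₀ ≤ y₀ / 5 := by
  intro hall
  have hS := Dict.flow_smooth2 h
  have hu := uniqueDiffOn_Icc (zero_lt_one' ℝ)
  have hJ := uniqueDiffOn_Icc hL
  have hmem : ((1:ℝ), (0:ℝ)) ∈ Icc (0:ℝ) 1 ×ˢ Icc 0 L :=
    ⟨⟨zero_le_one, le_rfl⟩, ⟨le_rfl, hL.le⟩⟩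
  have hone : Calc.pdX (Icc 0 1) (Icc 0 L) φ 1 0 = 1 := by
    rw [← hS.derivWithin_x hJ hmem.1 hmem.2]
    exact (h.profile 1 hmem.1).slope_left
  obtain ⟨d, hd, hd'⟩ :=
    Metric.continuousWithinAt_iff.1 ((hS.pdX hu hJ).continuousOn _ hmem) (1 / 2) (by norm_num)
  have ht0 : Tendsto (fun s : ℝ => Real.exp (-s)) atTop (𝓝 0) := Real.tendsto_exp_neg_atTop_nhds_zero
  have ht1 : Tendsto (fun s : ℝ => Real.exp (-s / 2) * y₀) atTop (𝓝 0) := by
    have h2 := Real.tendsto_exp_neg_atTop_nhds_zero.comp (tendsto_id.atTop_div_const two_pos)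
    have h3 := h2.mul_const y₀
    simp only [zero_mul, Function.comp_def, id, ← neg_div] at h3
    exact h3
  obtain ⟨s, ⟨hs1, hs2⟩, hs⟩ := (((ht0.eventually (gt_mem_nhds hd)).and
    (ht1.eventually (gt_mem_nhds (lt_min hd hL)))).and (eventually_ge_atTop 0)).exists
  set x := Real.exp (-s / 2) * y₀ with hxdef
  have hx0 : 0 < x := mul_pos (Real.exp_pos _) hy
  have ht := tof_mem_Icc hs
  have hxL : x < L := hs2.trans_le (min_le_right _ _)
  have hder : ∀ z ∈ Icc 0 x, 1 / 2 ≤ Calc.pdX (Icc 0 1) (Icc 0 L) φ (tof s) z := by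
    intro z hz
    have hz' : ((tof s, z) : ℝ × ℝ) ∈ Icc (0:ℝ) 1 ×ˢ Icc 0 L :=
      ⟨ht, hz.1, hz.2.trans hxL.le⟩
    have hdist : dist ((tof s, z) : ℝ × ℝ) (1, 0) < d := by
      rw [Prod.dist_eq, Real.dist_eq, Real.dist_eq, max_lt_iff]
      refine ⟨?_, ?_⟩
      · simpa [tof, abs_of_pos (Real.exp_pos _)] using hs1
      · rw [sub_zero, abs_of_nonneg hz.1]
        exact lt_of_le_of_lt hz.2 (hs2.trans_le (min_le_left _ _))
    have := hd' hz' hdist
    simp only [Function.uncurry_apply_pair, hone, Real.dist_eq, abs_lt] at this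
    linarith
  have hcont : ContinuousOn (φ (tof s)) (Icc 0 x) :=
    (hS.slice_x ht).continuousOn.mono (Icc_subset_Icc_right hxL.le)
  have hinc := (convex_Icc (0:ℝ) x).mul_sub_le_image_sub_of_le_deriv hcont ?_ (C := 1 / 2) ?_ 0
    (left_mem_Icc.2 hx0.le) x (right_mem_Icc.2 hx0.le) hx0.le
  · rw [(h.profile _ ht).left, sub_zero, sub_zero] at hinc
    have hb := hall s hs
    rw [rprof, ← hxdef] at hb
    have e : Real.exp (-s / 2) * (Real.exp (s / 2) * φ (tof s) x) = φ (tof s) x := by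
      rw [← mul_assoc, mul_comm (Real.exp (-s / 2)), exp_half_mul, one_mul]
    have hb' := mul_le_mul_of_nonneg_left hb (Real.exp_pos (-s / 2)).le
    rw [e] at hb'
    have hxy : Real.exp (-s / 2) * (y₀ / 5) = x / 5 := by rw [hxdef]; ring
    linarith
  · intro z hz
    rw [interior_Icc] at hz
    exact (hS.hasDerivAt_x ht (Icc_mem_nhds hz.1 (hz.2.trans hxL))).differentiableAt.differentiableWithinAt
  · intro z hz
    rw [interior_Icc] at hz
    rw [hS.deriv_x ht (Icc_mem_nhds hz.1 (hz.2.trans hxL))]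
    exact hder z (Ioo_subset_Icc_self hz)

end Vale.Agent.P264.Assembly
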