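import Vale.Agent.P264.Assembly.Rescale
import Vale.Agent.P264.LinOp.Targets

/-!
Products of two profile families close to the shrinker are good coefficients.
-/

namespace Vale.Agent.P264.Assembly

open Set Filter
open scoped ContDiff Topology

/-- A family of profiles which is close to the shrinker on a window. -/
structure Fam (σ : Shrinker) (A e L : ℝ) (ψ : ℝ → ℝ → ℝ) (s₀ T r : ℝ) : Prop where
  profile : ∀ t ∈ Ico (0:ℝ) 1, IsProfile L (ψ t)
  smooth : Calc.Smooth2 (Ico 0 1) (Icc 0 L) ψ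
  slope : ∀ s ∈ Icc s₀ (s₀ + T), ∀ y ∈ Ioo 0 (Ys L s), |deriv (rprof ψ s) y| ≤ A
  close : ∀ s ∈ Icc s₀ (s₀ + T), ∀ y ∈ Ioo 0 r, |rprof ψ s y - profF σ y| ≤ e * profF σ y

theorem slice_left_slope {L s : ℝ} {ψ : ℝ → ℝ → ℝ} (hL : 0 < L)
    (hP : IsProfile L (ψ (tof s))) :
    Tendsto (fun y => rprof ψ s y / y) (𝓝[>] 0) (𝓝 1) := by
  have hd : HasDerivWithinAt (ψ (tof s)) 1 (Icc 0 L) 0 := by
    rw [← hP.slope_left]
    exact (hP.smooth.differentiableOn (by simp) 0 (left_mem_Icc.2 hL.le)).hasDerivWithinAt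
  have h2 : HasDerivWithinAt (rprof ψ s) 1 (Icc 0 (Ys L s)) 0 := by
    have hm : HasDerivWithinAt (fun z => Real.exp (-s / 2) * z) (Real.exp (-s / 2))
        (Icc 0 (Ys L s)) 0 := by
      simpa using ((hasDerivAt_id (0:ℝ)).const_mul (Real.exp (-s / 2))).hasDerivWithinAt
    have := (hd.comp_of_eq 0 hm (fun z hz => x_mem_Icc hz) (by simp)).const_mul (Real.exp (s / 2))
    rw [one_mul, exp_half_mul] at this
    exact this
  have hset : 𝓝[>] (0:ℝ) ≤ 𝓝[Icc 0 (Ys L s) \ {0}] 0 := by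
    refine le_inf inf_le_left (le_principal_iff.2 ?_)
    exact Filter.mem_of_superset (Ioo_mem_nhdsGT (Ys_pos hL s)) fun z hz =>
      ⟨Ioo_subset_Icc_self hz, hz.1.ne'⟩
  refine ((hasDerivWithinAt_iff_tendsto_slope.1 h2).mono_left hset).congr fun y => ?_
  simp [slope, rprof, hP.left, div_eq_inv_mul]

theorem good_prod {σ : Shrinker} {A K e δ L s₀ T : ℝ} {ψ₁ ψ₂ : ℝ → ℝ → ℝ} (hδ : 0 < δ)
    (hs₀ : 0 ≤ s₀) (hLδ : 1 / δ ≤ L) (he : 0 ≤ e) (he1 : e ≤ 1) (heδ : 3 * e ≤ δ) (hK : 0 ≤ K)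
    (h1 : Fam σ A e L ψ₁ s₀ T (1 / δ)) (h2 : Fam σ A e L ψ₂ s₀ T (1 / δ))
    (h12 : ∀ s ∈ Icc s₀ (s₀ + T), ∀ y ∈ Ioo 0 (Ys L s), rprof ψ₁ s y ≤ K * rprof ψ₂ s y)
    (h21 : ∀ s ∈ Icc s₀ (s₀ + T), ∀ y ∈ Ioo 0 (Ys L s), rprof ψ₂ s y ≤ K * rprof ψ₁ s y) :
    LinOp.Good σ (A ^ 2 + 4 * K * A ^ 2) δ L (fun t x => ψ₁ t x * ψ₂ t x) s₀ T := by
  have hL : 0 < L := lt_of_lt_of_le (by positivity) hLδ
  have hfun : ∀ s, LinOp.rcoef (fun t x => ψ₁ t x * ψ₂ t x) s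
      = fun z => rprof ψ₁ s z * rprof ψ₂ s z := fun s => funext fun z => by
    simp only [LinOp.rcoef, rprof]
    rw [show Real.exp s = Real.exp (s / 2) * Real.exp (s / 2) by rw [← Real.exp_add]; ring_nf]
    ring
  have hsl : ∀ (ψ : ℝ → ℝ → ℝ), Fam σ A e L ψ s₀ T (1 / δ) → ∀ s ∈ Icc s₀ (s₀ + T),
      ContDiffOn ℝ ∞ (rprof ψ s) (Icc 0 (Ys L s)) ∧ rprof ψ s 0 = 0 ∧ rprof ψ s (Ys L s) = 0 ∧
        (∀ y ∈ Ioo 0 (Ys L s), 0 < rprof ψ s y ∧ rprof ψ s y ≤ A * y) := by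
    intro ψ hψ s hs
    have hP := hψ.profile _ (tof_mem (hs₀.trans hs.1))
    have he : Real.exp (-s / 2) * Ys L s = L := by
      rw [Ys, mul_comm L, ← mul_assoc, mul_comm (Real.exp (-s / 2)), exp_half_mul, one_mul]
    have hd : ContDiffOn ℝ ∞ (rprof ψ s) (Icc 0 (Ys L s)) := contDiffOn_const.mul (hP.smooth.comp
      (contDiffOn_const.mul contDiffOn_id) fun _ hy => x_mem_Icc hy)
    refine ⟨hd, by simp [rprof, hP.left], by simp [rprof, he, hP.right], fun y hy =>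
      ⟨mul_pos (Real.exp_pos _) (hP.pos _ (x_mem_Ioo hy)), ?_⟩⟩
    have := (convex_Icc (0:ℝ) (Ys L s)).image_sub_le_mul_sub_of_deriv_le hd.continuousOn
      ((hd.differentiableOn (by simp)).mono interior_subset)
      (fun z hz => (abs_le.1 (hψ.slope s hs z (by rwa [interior_Icc] at hz))).2) 0
      ⟨le_rfl, (Ys_pos hL s).le⟩ y (Ioo_subset_Icc_self hy) hy.1.le
    simpa [show rprof ψ s 0 = 0 by simp [rprof, hP.left]] using this
  refine ⟨hδ, hs₀, hLδ, h1.smooth.mul h2.smooth, fun s hs => ?_, fun s hs y hy => ?_,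
    fun s hs y hy => ?_, fun s hs y hy => ?_, fun s hs y hy => ?_, fun s hs => ?_⟩
  · obtain ⟨d1, -, r1, -⟩ := hsl ψ₁ h1 s hs
    obtain ⟨d2, -, r2, -⟩ := hsl ψ₂ h2 s hs
    have hY : Ys L s ∈ Icc 0 (Ys L s) := right_mem_Icc.2 (Ys_pos hL s).le
    rw [hfun]
    refine ⟨by simp [r1], ?_⟩
    have := ((d1.differentiableOn (by simp)) _ hY).hasDerivWithinAt.mul
      ((d2.differentiableOn (by simp)) _ hY).hasDerivWithinAt
    rw [r1, r2, mul_zero, zero_mul, add_zero] at this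
    exact this.derivWithin (uniqueDiffOn_Icc (Ys_pos hL s) _ hY)
  · rw [hfun]
    exact mul_pos ((hsl ψ₁ h1 s hs).2.2.2 y hy).1 ((hsl ψ₂ h2 s hs).2.2.2 y hy).1
  · rw [hfun]
    obtain ⟨p1, u1⟩ := (hsl ψ₁ h1 s hs).2.2.2 y hy
    obtain ⟨p2, u2⟩ := (hsl ψ₂ h2 s hs).2.2.2 y hy
    calc rprof ψ₁ s y * rprof ψ₂ s y ≤ (A * y) * (A * y) :=
          mul_le_mul u1 u2 p2.le (p1.le.trans u1)
      _ ≤ (A ^ 2 + 4 * K * A ^ 2) * y ^ 2 := by
          nlinarith [mul_nonneg (mul_nonneg hK (sq_nonneg A)) (sq_nonneg y)]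
  · obtain ⟨d1, -, -, b1⟩ := hsl ψ₁ h1 s hs
    obtain ⟨d2, -, -, b2⟩ := hsl ψ₂ h2 s hs
    obtain ⟨p1, -⟩ := b1 y hy
    obtain ⟨p2, -⟩ := b2 y hy
    have hn : Icc 0 (Ys L s) ∈ 𝓝 y := Icc_mem_nhds hy.1 hy.2
    have e1 := ((d1.differentiableOn (by simp)) y (mem_of_mem_nhds hn)).differentiableAt hn
    have e2 := ((d2.differentiableOn (by simp)) y (mem_of_mem_nhds hn)).differentiableAt hn
    rw [hfun, deriv_fun_mul e1 e2]
    set a := rprof ψ₁ s y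
    set b := rprof ψ₂ s y
    set a' := deriv (rprof ψ₁ s) y
    set b' := deriv (rprof ψ₂ s) y
    have ha : a' ^ 2 ≤ A ^ 2 := sq_le_sq' (abs_le.1 (h1.slope s hs y hy)).1
      (abs_le.1 (h1.slope s hs y hy)).2
    have hb : b' ^ 2 ≤ A ^ 2 := sq_le_sq' (abs_le.1 (h2.slope s hs y hy)).1
      (abs_le.1 (h2.slope s hs y hy)).2
    have k1 : a ^ 2 ≤ K * (a * b) := by nlinarith [mul_le_mul_of_nonneg_left (h12 s hs y hy) p1.le]
    have k2 : b ^ 2 ≤ K * (a * b) := by nlinarith [mul_le_mul_of_nonneg_left (h21 s hs y hy) p2.le]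
    have q1 : (a' * b) ^ 2 ≤ A ^ 2 * (K * (a * b)) := by
      rw [mul_pow]; exact mul_le_mul ha k2 (sq_nonneg _) (sq_nonneg _)
    have q2 : (a * b') ^ 2 ≤ A ^ 2 * (K * (a * b)) := by
      rw [mul_pow, mul_comm (a ^ 2)]; exact mul_le_mul hb k1 (sq_nonneg _) (sq_nonneg _)
    nlinarith [sq_nonneg (a' * b - a * b'), mul_nonneg (sq_nonneg A) (mul_pos p1 p2).le]
  · rw [hfun]
    have hF : 0 < profF σ y := profF_pos σ hy.1
    have u := abs_le.1 (h1.close s hs y hy)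
    have v := abs_le.1 (h2.close s hs y hy)
    set a := rprof ψ₁ s y
    set b := rprof ψ₂ s y
    show |a * b - profF σ y ^ 2| ≤ δ * profF σ y ^ 2
    have hdec : a * b - profF σ y ^ 2 = (a - profF σ y) * (b - profF σ y)
        + profF σ y * (a - profF σ y) + profF σ y * (b - profF σ y) := by ring
    have t1 : |(a - profF σ y) * (b - profF σ y)| ≤ (e * profF σ y) * (e * profF σ y) := by
      rw [abs_mul]
      exact mul_le_mul (h1.close s hs y hy) (h2.close s hs y hy) (abs_nonneg _) (by positivity)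
    have t2 : |profF σ y * (a - profF σ y)| ≤ profF σ y * (e * profF σ y) := by
      rw [abs_mul, abs_of_pos hF]
      exact mul_le_mul_of_nonneg_left (h1.close s hs y hy) hF.le
    have t3 : |profF σ y * (b - profF σ y)| ≤ profF σ y * (e * profF σ y) := by
      rw [abs_mul, abs_of_pos hF]
      exact mul_le_mul_of_nonneg_left (h2.close s hs y hy) hF.le
    rw [hdec]
    refine (abs_add_three _ _ _).trans ((add_le_add (add_le_add t1 t2) t3).trans ?_)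
    nlinarith [mul_nonneg (mul_nonneg he (sub_nonneg.2 he1)) (sq_nonneg (profF σ y)),
      mul_le_mul_of_nonneg_right heδ (sq_nonneg (profF σ y))]
  · rw [hfun]
    have hst := hs₀.trans hs.1
    have := (slice_left_slope hL (h1.profile _ (tof_mem hst))).mul
      (slice_left_slope hL (h2.profile _ (tof_mem hst)))
    rw [mul_one] at this
    exact this.congr fun y => by rw [div_mul_div_comm, sq]

end Vale.Agent.P264.Assembly
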