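import Vale.Agent.P264.Setup
import Vale.Agent.P264.Calc.Slices
import Vale.Agent.P264.Assembly.Data

/-!
Elementary facts about the rescaled variables.
-/

namespace Vale.Agent.P264.Assembly

open Set Filter
open scoped ContDiff Topology

theorem tof_zero : tof 0 = 0 := by simp [tof]

theorem tof_lt_one (s : ℝ) : tof s < 1 := by
  simp [tof, Real.exp_pos]

theorem tof_nonneg {s : ℝ} (hs : 0 ≤ s) : 0 ≤ tof s := by
  simp only [tof, sub_nonneg, Real.exp_le_one_iff, Left.neg_nonpos_iff]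
  exact hs

theorem tof_mem {s : ℝ} (hs : 0 ≤ s) : tof s ∈ Ico (0:ℝ) 1 := ⟨tof_nonneg hs, tof_lt_one s⟩

theorem tof_mem_Icc {s : ℝ} (hs : 0 ≤ s) : tof s ∈ Icc (0:ℝ) 1 :=
  ⟨tof_nonneg hs, (tof_lt_one s).le⟩

theorem tof_pos {s : ℝ} (hs : 0 < s) : 0 < tof s := by
  simp only [tof, sub_pos, Real.exp_lt_one_iff]; linarith

theorem tof_mem_Ioo {s : ℝ} (hs : 0 < s) : tof s ∈ Ioo (0:ℝ) 1 := ⟨tof_pos hs, tof_lt_one s⟩

theorem sqrt_one_sub_tof (s : ℝ) : Real.sqrt (1 - tof s) = Real.exp (-s / 2) := by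
  have : 1 - tof s = Real.exp (-s / 2) ^ 2 := by
    rw [tof, ← Real.exp_nat_mul]; norm_num; ring_nf
  rw [this, Real.sqrt_sq (Real.exp_pos _).le]

theorem exp_half_mul (s : ℝ) : Real.exp (s / 2) * Real.exp (-s / 2) = 1 := by
  rw [← Real.exp_add]; norm_num; ring_nf

theorem Ys_zero (L : ℝ) : Ys L 0 = L := by simp [Ys]

theorem Ys_pos {L : ℝ} (hL : 0 < L) (s : ℝ) : 0 < Ys L s := mul_pos hL (Real.exp_pos _)

theorem le_Ys {L s : ℝ} (hL : 0 ≤ L) (hs : 0 ≤ s) : L ≤ Ys L s :=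
  le_mul_of_one_le_right hL (Real.one_le_exp (by linarith))

theorem x_le {s y : ℝ} (hy : 0 ≤ y) (hs : 0 ≤ s) : Real.exp (-s / 2) * y ≤ y :=
  mul_le_of_le_one_left hy (Real.exp_le_one_iff.2 (by linarith))

theorem x_mem_Icc {L s y : ℝ} (hy : y ∈ Icc 0 (Ys L s)) : Real.exp (-s / 2) * y ∈ Icc 0 L := by
  refine ⟨mul_nonneg (Real.exp_pos _).le hy.1, ?_⟩
  calc Real.exp (-s / 2) * y ≤ Real.exp (-s / 2) * Ys L s :=
        mul_le_mul_of_nonneg_left hy.2 (Real.exp_pos _).le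
    _ = L * (Real.exp (s / 2) * Real.exp (-s / 2)) := by rw [Ys]; ring
    _ = L := by rw [exp_half_mul, mul_one]

theorem x_mem_Ioo {L s y : ℝ} (hy : y ∈ Ioo 0 (Ys L s)) : Real.exp (-s / 2) * y ∈ Ioo 0 L := by
  refine ⟨mul_pos (Real.exp_pos _) hy.1, ?_⟩
  calc Real.exp (-s / 2) * y < Real.exp (-s / 2) * Ys L s :=
        mul_lt_mul_of_pos_left hy.2 (Real.exp_pos _)
    _ = L * (Real.exp (s / 2) * Real.exp (-s / 2)) := by rw [Ys]; ring
    _ = L := by rw [exp_half_mul, mul_one]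

theorem y_mem_Ioo {L s x : ℝ} (hx : x ∈ Ioo 0 L) : Real.exp (s / 2) * x ∈ Ioo 0 (Ys L s) := by
  refine ⟨mul_pos (Real.exp_pos _) hx.1, ?_⟩
  rw [Ys, mul_comm L]
  exact mul_lt_mul_of_pos_left hx.2 (Real.exp_pos _)

theorem rprof_apply (φ : ℝ → ℝ → ℝ) (s x : ℝ) :
    rprof φ s (Real.exp (s / 2) * x) = Real.exp (s / 2) * φ (tof s) x := by
  rw [rprof, ← mul_assoc, mul_comm (Real.exp (-s / 2)), exp_half_mul, one_mul]

theorem rprof_zero (φ : ℝ → ℝ → ℝ) (y : ℝ) : rprof φ 0 y = φ 0 y := by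
  simp [rprof, tof]

theorem snap_zero (w : ℝ → ℝ → ℝ) (y : ℝ) : snap w 0 y = w 0 y := by
  simp [snap, tof]

theorem deriv_rprof (φ : ℝ → ℝ → ℝ) (s y : ℝ) :
    deriv (rprof φ s) y = deriv (φ (tof s)) (Real.exp (-s / 2) * y) := by
  have h : rprof φ s = fun z => Real.exp (s / 2) * φ (tof s) (Real.exp (-s / 2) * z) := rfl
  rw [h, deriv_const_mul_field, deriv_comp_mul_left, smul_eq_mul, ← mul_assoc, exp_half_mul,
    one_mul]

theorem rprof_ref {σ : Shrinker} {L s y : ℝ} (hy : y ≤ Ys L s / 4) :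
    rprof (phiRef σ L) s y = profF σ y := by
  have hx : Real.exp (-s / 2) * y ≤ L / 4 := by
    calc Real.exp (-s / 2) * y ≤ Real.exp (-s / 2) * (Ys L s / 4) :=
          mul_le_mul_of_nonneg_left hy (Real.exp_pos _).le
      _ = L * (Real.exp (s / 2) * Real.exp (-s / 2)) / 4 := by rw [Ys]; ring
      _ = L / 4 := by rw [exp_half_mul, mul_one]
  have he : Real.exp (-s / 2) ≠ 0 := (Real.exp_pos _).ne'
  rw [rprof, phiRef, if_pos hx, sqrt_one_sub_tof, profF, mul_div_cancel_left₀ _ he, ← mul_assoc,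
    ← mul_assoc, exp_half_mul, one_mul]

variable {L : ℝ} {φ₀ : ℝ → ℝ} {φ : ℝ → ℝ → ℝ}

theorem profile_slice (h : IsFlow L 1 φ₀ φ) {s : ℝ} (hs : 0 ≤ s) : IsProfile L (φ (tof s)) :=
  h.profile _ (tof_mem_Icc hs)

theorem rprof_pos (h : IsFlow L 1 φ₀ φ) {s y : ℝ} (hs : 0 ≤ s) (hy : y ∈ Ioo 0 (Ys L s)) :
    0 < rprof φ s y :=
  mul_pos (Real.exp_pos _) ((profile_slice h hs).pos _ (x_mem_Ioo hy))

theorem rprof_smooth (h : IsFlow L 1 φ₀ φ) {s : ℝ} (hs : 0 ≤ s) :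
    ContDiffOn ℝ ∞ (rprof φ s) (Icc 0 (Ys L s)) :=
  contDiffOn_const.mul ((profile_slice h hs).smooth.comp
    (contDiffOn_const.mul contDiffOn_id) fun _ hy => x_mem_Icc hy)

theorem rprof_left (h : IsFlow L 1 φ₀ φ) {s : ℝ} (hs : 0 ≤ s) : rprof φ s 0 = 0 := by
  simp [rprof, (profile_slice h hs).left]

theorem rprof_right (h : IsFlow L 1 φ₀ φ) {s : ℝ} (hs : 0 ≤ s) : rprof φ s (Ys L s) = 0 := by
  have : Real.exp (-s / 2) * Ys L s = L := by
    rw [Ys, mul_comm L, ← mul_assoc, mul_comm (Real.exp (-s / 2)), exp_half_mul, one_mul]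
  simp [rprof, this, (profile_slice h hs).right]

/-- A slope bound in the interior gives the linear bounds at both ends. -/
theorem rprof_le_slope (hL : 0 < L) (h : IsFlow L 1 φ₀ φ) {s M : ℝ} (hs : 0 ≤ s)
    (hM : ∀ y ∈ Ioo 0 (Ys L s), |deriv (rprof φ s) y| ≤ M) {y : ℝ} (hy : y ∈ Icc 0 (Ys L s)) :
    |rprof φ s y| ≤ M * y ∧ |rprof φ s y| ≤ M * (Ys L s - y) := by
  set Y := Ys L s
  have hY : 0 < Y := Ys_pos hL s
  have hs' := rprof_smooth h hs
  have hM0 : 0 ≤ M := (abs_nonneg _).trans (hM (Y / 2) ⟨by linarith, by linarith⟩)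
  have hd : DifferentiableOn ℝ (rprof φ s) (interior (Icc 0 Y)) :=
    (hs'.differentiableOn (by simp)).mono interior_subset
  have hup : ∀ z ∈ interior (Icc 0 Y), deriv (rprof φ s) z ≤ M := by
    intro z hz; rw [interior_Icc] at hz; exact (abs_le.1 (hM z hz)).2
  have hlo : ∀ z ∈ interior (Icc 0 Y), -M ≤ deriv (rprof φ s) z := by
    intro z hz; rw [interior_Icc] at hz; exact (abs_le.1 (hM z hz)).1
  have A := (convex_Icc (0:ℝ) Y).image_sub_le_mul_sub_of_deriv_le hs'.continuousOn hd hup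
  have B := (convex_Icc (0:ℝ) Y).mul_sub_le_image_sub_of_le_deriv hs'.continuousOn hd hlo
  have a1 := A 0 (left_mem_Icc.2 hY.le) y hy hy.1
  have a2 := A y hy Y (right_mem_Icc.2 hY.le) hy.2
  have b1 := B 0 (left_mem_Icc.2 hY.le) y hy hy.1
  have b2 := B y hy Y (right_mem_Icc.2 hY.le) hy.2
  rw [rprof_left h hs, sub_zero, sub_zero] at a1 b1
  rw [rprof_right h hs, zero_sub] at a2 b2
  constructor <;> rw [abs_le] <;> constructor <;> linarith

theorem rprof_tendsto (hL : 0 < L) (h : IsFlow L 1 φ₀ φ) {s : ℝ} (hs : 0 ≤ s) :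
    Tendsto (fun y => rprof φ s y / y) (𝓝[>] 0) (𝓝 1) := by
  have hP := profile_slice h hs
  have hd : HasDerivWithinAt (φ (tof s)) 1 (Icc 0 L) 0 := by
    rw [← hP.slope_left]
    exact (hP.smooth.differentiableOn (by simp) 0 (left_mem_Icc.2 hL.le)).hasDerivWithinAt
  have hY := Ys_pos hL s
  have h2 : HasDerivWithinAt (rprof φ s) 1 (Icc 0 (Ys L s)) 0 := by
    have hm : HasDerivWithinAt (fun z => Real.exp (-s / 2) * z) (Real.exp (-s / 2))
        (Icc 0 (Ys L s)) 0 := by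
      simpa using ((hasDerivAt_id (0:ℝ)).const_mul (Real.exp (-s / 2))).hasDerivWithinAt
    have := (hd.comp_of_eq 0 hm (fun z hz => x_mem_Icc hz) (by simp)).const_mul (Real.exp (s / 2))
    rw [one_mul, exp_half_mul] at this
    exact this
  have h3 := hasDerivWithinAt_iff_tendsto_slope.1 h2
  have hset : 𝓝[>] (0:ℝ) ≤ 𝓝[Icc 0 (Ys L s) \ {0}] 0 := by
    refine le_inf inf_le_left (le_principal_iff.2 ?_)
    exact Filter.mem_of_superset (Ioo_mem_nhdsGT hY) fun z hz =>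
      ⟨Ioo_subset_Icc_self hz, hz.1.ne'⟩
  refine (h3.mono_left hset).congr fun y => ?_
  simp [slope, rprof_left h hs, div_eq_inv_mul]

end Vale.Agent.P264.Assembly
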