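import Vale.Agent.P264.Assembly.GrowthTargets
import Vale.Agent.P264.Assembly.Rescale
import Vale.Agent.P264.Middle.SliceInt

/-!
Exponential bound for the main norm under the bootstrap.
-/

namespace Vale.Agent.P264.Assembly

open Set Filter MeasureTheory intervalIntegral
open scoped ContDiff Topology

variable {L s y : ℝ} {ψ a f w : ℝ → ℝ → ℝ}

theorem slice_smooth (hP : IsProfile L (ψ (tof s))) :
    ContDiffOn ℝ ∞ (rprof ψ s) (Icc 0 (Ys L s)) :=
  contDiffOn_const.mul (hP.smooth.comp (contDiffOn_const.mul contDiffOn_id) fun _ hy => x_mem_Icc hy)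

theorem slice_ends (hP : IsProfile L (ψ (tof s))) :
    rprof ψ s 0 = 0 ∧ rprof ψ s (Ys L s) = 0 := by
  have h : Real.exp (-s / 2) * Ys L s = L := by
    rw [Ys, mul_comm L, ← mul_assoc, mul_comm (Real.exp (-s / 2)), exp_half_mul, one_mul]
  exact ⟨by simp [rprof, hP.left], by simp [rprof, h, hP.right]⟩

theorem slice_pos (hP : IsProfile L (ψ (tof s))) (hy : y ∈ Ioo 0 (Ys L s)) :
    0 < rprof ψ s y :=
  mul_pos (Real.exp_pos _) (hP.pos _ (x_mem_Ioo hy))

theorem slice_nonneg (hP : IsProfile L (ψ (tof s))) (hy : y ∈ Icc 0 (Ys L s)) :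
    0 ≤ rprof ψ s y := by
  rcases eq_or_lt_of_le hy.1 with h | h
  · rw [← h, (slice_ends hP).1]
  rcases eq_or_lt_of_le hy.2 with h' | h'
  · rw [h', (slice_ends hP).2]
  exact (slice_pos hP ⟨h, h'⟩).le

theorem slice_le (hP : IsProfile L (ψ (tof s))) {A : ℝ}
    (hA : ∀ z ∈ Ioo 0 (Ys L s), |deriv (rprof ψ s) z| ≤ A) (hy : y ∈ Icc 0 (Ys L s)) :
    rprof ψ s y ≤ A * y := by
  have hd := slice_smooth hP
  have := (convex_Icc (0:ℝ) (Ys L s)).image_sub_le_mul_sub_of_deriv_le hd.continuousOn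
    ((hd.differentiableOn (by simp)).mono interior_subset)
    (fun z hz => (abs_le.1 (hA z (by rwa [interior_Icc] at hz))).2) 0
    ⟨le_rfl, hy.1.trans hy.2⟩ y hy hy.1
  simpa [(slice_ends hP).1] using this

/-- Away from the ends the left side of the rescaled equation is the physical time derivative. -/
theorem snap_deriv_sub_drift (hw : Calc.Smooth2 (Ico 0 1) (Icc 0 L) w) (hs : 0 < s)
    (hy : y ∈ Ioo 0 (Ys L s)) :
    deriv (fun r => snap w r y) s - drift (snap w s) y =
      Real.exp (-s / 2) * Calc.pdT (Ico 0 1) (Icc 0 L) w (tof s) (Real.exp (-s / 2) * y) := by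
  set t := tof s
  set x := Real.exp (-s / 2) * y
  have hx : x ∈ Ioo 0 L := x_mem_Ioo hy
  have ht : t ∈ Ioo (0:ℝ) 1 := tof_mem_Ioo hs
  have hn : Ico (0:ℝ) 1 ×ˢ Icc 0 L ∈ 𝓝 (t, x) :=
    prod_mem_nhds (Ico_mem_nhds ht.1 ht.2) (Icc_mem_nhds hx.1 hx.2)
  have hf := (((hw.differentiableOn (by simp)) (t, x) ⟨Ioo_subset_Ico_self ht,
    Ioo_subset_Icc_self hx⟩).hasFDerivWithinAt).hasFDerivAt hn
  have he : HasDerivAt (fun r : ℝ => Real.exp (-r / 2)) (Real.exp (-s / 2) * (-1 / 2)) s :=
    (((hasDerivAt_id s).neg).div_const 2).exp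
  have ht' : HasDerivAt tof (Real.exp (-s)) s := by
    unfold tof
    convert ((hasDerivAt_id s).neg.exp).const_sub (1:ℝ) using 1
    all_goals first | rfl | simp
  have hc := hf.comp_hasDerivAt s (ht'.prodMk (he.mul_const y))
  have hg : HasDerivAt (fun r : ℝ => Real.exp (r / 2)) (Real.exp (s / 2) * (1 / 2)) s :=
    ((hasDerivAt_id s).div_const 2).exp
  have hsnap := hg.mul hc
  have hlin : ∀ p q : ℝ, fderivWithin ℝ (Function.uncurry w) (Ico 0 1 ×ˢ Icc 0 L) (t, x) (p, q) =
      p * Calc.pdT (Ico 0 1) (Icc 0 L) w t x + q * Calc.pdX (Ico 0 1) (Icc 0 L) w t x := by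
    intro p q
    have : ((p, q) : ℝ × ℝ) = p • ((1:ℝ), (0:ℝ)) + q • ((0:ℝ), (1:ℝ)) := by ext <;> simp
    rw [this, map_add, map_smul, map_smul]
    rfl
  have h1 : deriv (fun r => snap w r y) s = Real.exp (s / 2) * (1 / 2) * w t x
      + Real.exp (s / 2) * (Real.exp (-s) * Calc.pdT (Ico 0 1) (Icc 0 L) w t x
        + Real.exp (-s / 2) * (-1 / 2) * y * Calc.pdX (Ico 0 1) (Icc 0 L) w t x) := by
    rw [← hlin]
    exact hsnap.deriv
  have h2 : deriv (snap w s) y = Calc.pdX (Ico 0 1) (Icc 0 L) w t x := by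
    have h : snap w s = fun z => Real.exp (s / 2) * w t (Real.exp (-s / 2) * z) := rfl
    rw [h, deriv_const_mul_field, deriv_comp_mul_left, smul_eq_mul, ← mul_assoc, exp_half_mul,
      one_mul]
    exact hw.deriv_x (Ioo_subset_Ico_self ht) (Icc_mem_nhds hx.1 hx.2)
  have h3 : Real.exp (s / 2) * Real.exp (-s) = Real.exp (-s / 2) := by
    rw [← Real.exp_add]; ring_nf
  rw [h1, drift, h2, show snap w s y = Real.exp (s / 2) * w t x from rfl]
  linear_combination Calc.pdT (Ico 0 1) (Icc 0 L) w t x * h3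
    - y / 2 * Calc.pdX (Ico 0 1) (Icc 0 L) w t x * exp_half_mul s

theorem rho_five_bounds (hy : 0 ≤ y) : 0 ≤ rho 5 y ∧ rho 5 y ≤ 1 / (1 + y ^ 2) := by
  refine ⟨by unfold rho; positivity, ?_⟩
  unfold rho
  rw [div_le_div_iff₀ (by positivity) (by positivity)]
  have h1 : y ^ 3 ≤ (1 + y ^ 2) ^ 2 := by nlinarith [sq_nonneg (y - 1), sq_nonneg y]
  have h2 : (1 + y ^ 2) ^ 2 * (1 + y ^ 2) ≤ (1 + y ^ 2) ^ 5 := by
    rw [← pow_succ]
    exact pow_le_pow_right₀ (by nlinarith) (by norm_num)
  nlinarith [mul_le_mul_of_nonneg_right h1 (by positivity : (0:ℝ) ≤ 1 + y ^ 2)]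

theorem continuous_rho_five : Continuous (rho 5) :=
  (continuous_pow 3).div (by fun_prop) fun z => by positivity

theorem normN_eq (L : ℝ) (w : ℝ → ℝ → ℝ) (r : ℝ) :
    normN L w r = Ys L r * ∫ u in (0:ℝ)..1,
      rho 5 (Ys L r * u) * (Real.exp (r / 2) * w (tof r) (L * u)) ^ 2 := by
  have h := intervalIntegral.smul_integral_comp_mul_left
    (fun z => rho 5 z * snap w r z ^ 2) (Ys L r) (a := 0) (b := 1)
  rw [mul_zero, mul_one, smul_eq_mul] at h
  have hN : normN L w r = ∫ z in (0:ℝ)..Ys L r, rho 5 z * snap w r z ^ 2 := by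
    simp [normN, wsq]
  rw [hN, ← h]
  congr 1
  refine intervalIntegral.integral_congr fun u _ => ?_
  have : Real.exp (-r / 2) * (Ys L r * u) = L * u := by
    rw [Ys]; linear_combination L * u * exp_half_mul r
  simp [snap, this]

theorem normN_nonneg (hL : 0 < L) (w : ℝ → ℝ → ℝ) (r : ℝ) : 0 ≤ normN L w r := by
  refine intervalIntegral.integral_nonneg (Ys_pos hL r).le fun z hz => ?_
  have := (rho_five_bounds hz.1).1
  positivity

theorem continuousOn_normN (hL : 0 < L) (hw : Calc.Smooth2 (Ico 0 1) (Icc 0 L) w) {s₀ s₁ : ℝ}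
    (h0 : 0 ≤ s₀) (h01 : s₀ ≤ s₁) : ContinuousOn (normN L w) (Icc s₀ s₁) := by
  have hc : ContinuousOn (Function.uncurry fun r u =>
      rho 5 (Ys L r * u) * (Real.exp (r / 2) * w (tof r) (L * u)) ^ 2) (Icc s₀ s₁ ×ˢ Icc 0 1) := by
    have hmap : ContinuousOn (fun p : ℝ × ℝ => w (tof p.1) (L * p.2)) (Icc s₀ s₁ ×ˢ Icc 0 1) :=
      hw.continuousOn.comp (f := fun p : ℝ × ℝ => (tof p.1, L * p.2))
        (by unfold tof; fun_prop) fun p hp =>
        ⟨tof_mem (h0.trans hp.1.1), mul_nonneg hL.le hp.2.1, mul_le_of_le_one_right hL.le hp.2.2⟩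
    exact ((continuous_rho_five.comp (by unfold Ys; fun_prop)).continuousOn).mul
      (((by fun_prop : Continuous fun p : ℝ × ℝ => Real.exp (p.1 / 2)).continuousOn.mul hmap).pow 2)
  exact ((by unfold Ys; fun_prop : Continuous (Ys L)).continuousOn.mul
    (Middle.continuousOn_slice_integral zero_le_one h01 hc)).congr fun r _ => normN_eq L w r

/-- One time of the bootstrap: the derivative of the norm. -/
theorem deriv_normN_le (hse : Dict.SnapEqnTarget) (hnd : Dict.NormDerivTarget)
    (hL : 0 < L) (hp : Pot L a f w) {B Cc cc δ : ℝ} (hcc : 0 ≤ cc) (hCc : 0 ≤ Cc)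
    (hs : 0 < s) {fm : ℝ → ℝ} (hfm : Measurable fm) (hfe : EqOn fm (f (tof s)) (Ioo 0 L))
    (hfb : ∀ x ∈ Ioo 0 L, |f (tof s) x| ≤ B / L)
    (ha : ∀ z ∈ Icc 0 (Ys L s), 0 ≤ Real.exp s * a (tof s) (Real.exp (-s / 2) * z))
    (hδ : 0 ≤ δ)
    (hco : cc * (diss 5 (fun _ => 1) (Ys L s)
          (fun z => Real.exp s * a (tof s) (Real.exp (-s / 2) * z)) (snap w s)
        + 1 ^ 8 * near δ (snap w s)) - Cc * loss 5 (fun _ => 1) (Ys L s) (snap w s)
      ≤ ∫ z in (0:ℝ)..Ys L s, 1 ^ 8 * rho 5 z * snap w s z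
          * dst (fun u => (Real.exp s * a (tof s) (Real.exp (-s / 2) * u))
            * deriv (deriv (snap w s)) u) z) :
    ∃ N' : ℝ, HasDerivAt (normN L w) N' s ∧
      N' ≤ (2 * Cc + 4) * (normN L w s + 2 * B ^ 2 / L ^ 2) := by
  set Y := Ys L s with hYdef
  have hY : 0 < Y := Ys_pos hL s
  have hw : Calc.Smooth2 (Ico 0 1) (Icc 0 L) w := hp.smooth
  set V := snap w s with hVdef
  set T := tof s
  have hcomp : ∀ {g : ℝ → ℝ → ℝ}, ContinuousOn (Function.uncurry g) (Ico 0 1 ×ˢ Icc 0 L) →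
      ContinuousOn (fun z => g T (Real.exp (-s / 2) * z)) (Icc 0 Y) := fun hg =>
    hg.comp (f := fun z => (T, Real.exp (-s / 2) * z)) (by fun_prop) fun z hz =>
      ⟨tof_mem hs.le, x_mem_Icc hz⟩
  have hVc : ContinuousOn V (Icc 0 Y) := continuousOn_const.mul (hcomp hw.continuousOn)
  set D := fun z => dst (fun u => (Real.exp s * a T (Real.exp (-s / 2) * u))
    * deriv (deriv V) u) z with hD
  set F := fun z => Real.exp (-s / 2) * f T (Real.exp (-s / 2) * z) with hF
  set G := fun z => Real.exp (-s / 2) *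
    Calc.pdT (Ico 0 1) (Icc 0 L) w T (Real.exp (-s / 2) * z) with hG
  have hGc : ContinuousOn G (Icc 0 Y) := continuousOn_const.mul (hcomp
    (hw.pdT (uniqueDiffOn_Ico 0 1) (uniqueDiffOn_Icc hL)).continuousOn)
  have heq : ∀ z ∈ Ioo 0 Y, deriv (fun r => snap w r z) s - drift V z = G z ∧ G z = -D z + F z := by
    intro z hz
    refine ⟨snap_deriv_sub_drift hw hs hz, ?_⟩
    have e1 := snap_deriv_sub_drift hw hs hz
    have e2 := hse L a f w hL hp s hs z hz
    simp only [hG, hD, hF]
    linarith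
  have hae : ∀ {u v : ℝ → ℝ}, (∀ z ∈ Ioo 0 Y, u z = v z) →
      ∀ᵐ z : ℝ, z ∈ uIoc 0 Y → u z = v z := by
    intro u v h
    have hne : ∀ᵐ z : ℝ, z ≠ Y := by simp [ae_iff]
    filter_upwards [hne] with z hz hz'
    rw [uIoc_of_le hY.le] at hz'
    exact h z ⟨hz'.1, lt_of_le_of_ne hz'.2 hz⟩
  have hB : 0 ≤ B := by
    have := (abs_nonneg _).trans (hfb (L / 2) ⟨by linarith, by linarith⟩)
    rwa [le_div_iff₀ hL, zero_mul] at this
  have hFb : ∀ z ∈ Ioo 0 Y, |F z| ≤ B / L := by
    intro z hz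
    simp only [hF, abs_mul, abs_of_pos (Real.exp_pos _)]
    exact (mul_le_of_le_one_left (abs_nonneg _) (Real.exp_le_one_iff.2 (by linarith))).trans
      (hfb _ (x_mem_Ioo hz))
  have hWc : ContinuousOn (fun z => rho 5 z * V z) (Icc 0 Y) :=
    continuous_rho_five.continuousOn.mul hVc
  have iF : IntervalIntegrable F volume 0 Y := by
    refine IntervalIntegrable.mono_fun' (intervalIntegrable_const (c := B / L)) ?_ ?_
    · have hg : Measurable fun z => Real.exp (-s / 2) * fm (Real.exp (-s / 2) * z) :=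
        measurable_const.mul (hfm.comp (measurable_const.mul measurable_id))
      refine hg.aestronglyMeasurable.congr ((ae_restrict_iff' measurableSet_uIoc).2 (hae fun z hz => ?_))
      simp only [hF]
      rw [hfe (x_mem_Ioo hz)]
    · rw [EventuallyLE, uIoc_of_le hY.le, ← Measure.restrict_congr_set Ioo_ae_eq_Ioc]
      exact (ae_restrict_iff' measurableSet_Ioo).2 (Eventually.of_forall fun z hz => by
        simpa [Real.norm_eq_abs] using hFb z hz)
  have iWF : IntervalIntegrable (fun z => rho 5 z * V z * F z) volume 0 Y :=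
    iF.continuousOn_mul (by rwa [uIcc_of_le hY.le])
  have iWG : IntervalIntegrable (fun z => rho 5 z * V z * G z) volume 0 Y :=
    (hWc.mul hGc).intervalIntegrable_of_Icc hY.le
  have hWD : ∫ z in (0:ℝ)..Y, rho 5 z * V z * D z
      = (∫ z in (0:ℝ)..Y, rho 5 z * V z * F z) - ∫ z in (0:ℝ)..Y, rho 5 z * V z * G z := by
    rw [← intervalIntegral.integral_sub iWF iWG]
    exact intervalIntegral.integral_congr_ae (hae fun z hz => by rw [(heq z hz).2]; ring)
  have key := hnd L a f w hL hp 5 0 (fun _ => 1) contDiff_const s hs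
  simp only [one_pow, one_mul, deriv_const, zero_mul, mul_zero, mul_one,
    intervalIntegral.integral_zero, add_zero] at key
  have hfun : normN L w = fun r => wsq 5 8 (fun _ => 1) (Ys L r) (snap w r) :=
    funext fun r => by simp [normN, wsq]
  refine ⟨_, hfun ▸ key, ?_⟩
  have hN : normN L w s = ∫ z in (0:ℝ)..Y, rho 5 z * V z ^ 2 := by simp [normN, wsq, hVdef, hYdef]
  have h1 : ∫ z in (0:ℝ)..Y, 2 * rho 5 z * V z * (deriv (fun r => snap w r z) s - drift V z)
      = 2 * ∫ z in (0:ℝ)..Y, rho 5 z * V z * G z := by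
    rw [← intervalIntegral.integral_const_mul]
    exact intervalIntegral.integral_congr_ae (hae fun z hz => by rw [(heq z hz).1]; ring)
  have iN : IntervalIntegrable (fun z => rho 5 z * V z ^ 2) volume 0 Y :=
    (continuous_rho_five.continuousOn.mul (hVc.pow 2)).intervalIntegrable_of_Icc hY.le
  have h2 : ∫ z in (0:ℝ)..Y, rho 5 z * V z ^ 2 * ((6 - 2 * (5:ℕ) * z ^ 2 / (1 + z ^ 2)) / 2)
      ≤ 3 * ∫ z in (0:ℝ)..Y, rho 5 z * V z ^ 2 := by
    rw [← intervalIntegral.integral_const_mul]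
    refine intervalIntegral.integral_mono_on hY.le ?_ (iN.const_mul 3) fun z hz => ?_
    · refine ContinuousOn.intervalIntegrable_of_Icc hY.le ?_
      exact (continuous_rho_five.continuousOn.mul (hVc.pow 2)).mul
        (Continuous.continuousOn (by
          refine (continuous_const.sub (Continuous.div (by fun_prop) (by fun_prop)
            fun x => by positivity)).div_const 2))
    · have hr := (rho_five_bounds hz.1).1
      have : 0 ≤ 2 * ((5:ℕ):ℝ) * z ^ 2 / (1 + z ^ 2) := by positivity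
      rw [mul_comm (3:ℝ)]
      exact mul_le_mul_of_nonneg_left (by linarith) (by positivity)
  have h3 : 2 * ∫ z in (0:ℝ)..Y, rho 5 z * V z * F z
      ≤ (∫ z in (0:ℝ)..Y, rho 5 z * V z ^ 2) + 2 * B ^ 2 / L ^ 2 := by
    have iR : IntervalIntegrable (fun z => (B / L) ^ 2 * (1 / (1 + z ^ 2))) volume 0 Y :=
      (Continuous.intervalIntegrable (by
        exact continuous_const.mul (continuous_const.div (by fun_prop) fun x => by positivity)) _ _)
    rw [← intervalIntegral.integral_const_mul]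
    refine (intervalIntegral.integral_mono_on_of_le_Ioo hY.le (iWF.const_mul 2) (iN.add iR)
      fun z hz => ?_).trans ?_
    · have hr := rho_five_bounds hz.1.le
      have hF2 : F z ^ 2 ≤ (B / L) ^ 2 := by
        nlinarith [hFb z hz, abs_nonneg (F z), sq_abs (F z)]
      have := mul_le_mul hr.2 hF2 (sq_nonneg _) (by positivity)
      nlinarith [mul_nonneg hr.1 (sq_nonneg (V z - F z))]
    · rw [intervalIntegral.integral_add iN iR, intervalIntegral.integral_const_mul,
        integral_one_div_one_add_sq, Real.arctan_zero, sub_zero]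
      have hat : Real.arctan Y ≤ 2 := by
        linarith [Real.arctan_lt_pi_div_two Y, Real.pi_lt_four]
      have : (B / L) ^ 2 * Real.arctan Y ≤ 2 * B ^ 2 / L ^ 2 := by
        calc (B / L) ^ 2 * Real.arctan Y ≤ (B / L) ^ 2 * 2 := by gcongr
          _ = 2 * B ^ 2 / L ^ 2 := by ring
      linarith
  have hdiss : 0 ≤ diss 5 (fun _ => 1) Y
      (fun z => Real.exp s * a T (Real.exp (-s / 2) * z)) V := by
    refine intervalIntegral.integral_nonneg hY.le fun z hz => ?_
    have := (rho_five_bounds hz.1).1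
    have := ha z hz
    positivity
  have hnear : 0 ≤ near δ V := by
    refine intervalIntegral.integral_nonneg hδ fun z hz => ?_
    have := hz.1
    positivity
  have hloss : loss 5 (fun _ => 1) Y V ≤ ∫ z in (0:ℝ)..Y, rho 5 z * V z ^ 2 := by
    simp only [loss, one_pow, one_mul]
    refine intervalIntegral.integral_mono_on hY.le ?_ iN fun z hz => ?_
    · exact ((continuous_rho_five.continuousOn.mul (hVc.pow 2)).div (by fun_prop)
        fun x _ => by positivity).intervalIntegrable_of_Icc hY.le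
    · have := (rho_five_bounds hz.1).1
      exact div_le_self (by positivity) (by nlinarith)
  simp only [one_pow, one_mul] at hco
  have hB2 : 0 ≤ 2 * B ^ 2 / L ^ 2 := by positivity
  have hco' : -(Cc * ∫ z in (0:ℝ)..Y, rho 5 z * V z ^ 2) ≤ ∫ z in (0:ℝ)..Y, rho 5 z * V z * D z := by
    nlinarith [mul_le_mul_of_nonneg_left hloss hCc, mul_nonneg hcc (add_nonneg hdiss hnear)]
  rw [hN, h1]
  nlinarith [hco', hWD, h2, h3, mul_nonneg hCc hB2]

theorem growth : GrowthTarget := by
  intro hco hse hnd href hrs σ M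
  obtain ⟨δ₀, hδ₀, hco⟩ := hco
  obtain ⟨L₁, Cs, hL₁, hCs⟩ := hrs σ
  obtain ⟨L₂, Cf, hL₂, _, href⟩ := href σ
  obtain ⟨δ₁, hδ₁, hq⟩ := Metric.continuousWithinAt_iff.1
    (σ.q_smooth.continuousOn 0 self_mem_Ici) (1 / 1000) (by norm_num)
  set δ := min (min δ₀ (δ₁ / 2)) 1 with hδd
  have hδ : 0 < δ := lt_min (lt_min hδ₀ (by positivity)) one_pos
  set A := |M| + |Cs| + 1 with hAd
  have hA1 : 1 ≤ A := by rw [hAd]; linarith [abs_nonneg M, abs_nonneg Cs]
  obtain ⟨c, C, hc, hC, hco⟩ := hco 5 (by norm_num) (by norm_num) (4 * A ^ 3) 0 δ hδ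
    ((min_le_left _ _).trans (min_le_left _ _))
  refine ⟨1, one_pos, fun R hR => ⟨1, 2 * C + 4, 2 * Cf ^ 2, max (max L₁ L₂) 4, one_pos,
    by linarith, by positivity, fun L hL φ₀ φ w hφ hw s₀ s₁ hs0 hs01 hboot => ?_⟩⟩
  have hL1 : L₁ ≤ L := ((le_max_left _ _).trans (le_max_left _ _)).trans hL
  have hL2 : L₂ ≤ L := ((le_max_right _ _).trans (le_max_left _ _)).trans hL
  have hL4 : (4:ℝ) ≤ L := (le_max_right _ _).trans hL
  have hLp : 0 < L := by linarith
  obtain ⟨hprof, hsmooth, hfr⟩ := href L hL2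
  have hder : ∀ r ∈ Ioo s₀ s₁, ∃ N' : ℝ, HasDerivAt (normN L w) N' r ∧
      N' ≤ (2 * C + 4) * (normN L w r + 2 * Cf ^ 2 / L ^ 2) := by
    intro r hr
    have hr0 : 0 < r := hs0.trans_lt hr.1
    have hb := hboot r (Ioo_subset_Icc_self hr)
    set P := rprof φ r with hPd
    set Q := rprof (phiRef σ L) r with hQd
    set Y := Ys L r with hYd
    have hP : IsProfile L (φ (tof r)) := profile_slice hφ hr0.le
    have hQ : IsProfile L (phiRef σ L (tof r)) := hprof _ (tof_mem hr0.le)
    have hY4 : 4 ≤ Y := hL4.trans (le_Ys hLp.le hr0.le)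
    have dP : ∀ z ∈ Ioo 0 Y, |deriv P z| ≤ A := fun z hz =>
      (hb.slope z hz).trans (by rw [hAd]; linarith [le_abs_self M, abs_nonneg Cs])
    have dQ : ∀ z ∈ Ioo 0 Y, |deriv Q z| ≤ A := fun z hz => by
      rw [hQd, deriv_rprof]
      exact (hCs L hL1 _ (tof_mem hr0.le) _ (x_mem_Ioo hz)).trans
        (by rw [hAd]; linarith [le_abs_self Cs, abs_nonneg M])
    set α := fun z => Real.exp r * (φ (tof r) (Real.exp (-r / 2) * z)
      * phiRef σ L (tof r) (Real.exp (-r / 2) * z)) with hαd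
    have hα : ∀ z, α z = P z * Q z := fun z => by
      simp only [hαd, hPd, hQd, rprof]
      rw [show Real.exp r = Real.exp (r / 2) * Real.exp (r / 2) by rw [← Real.exp_add]; ring_nf]
      ring
    have hαf : α = fun z => P z * Q z := funext hα
    have sP := slice_smooth hP
    have sQ := slice_smooth hQ
    have hcoef : Coef Y (4 * A ^ 3) δ α := by
      refine ⟨?_, fun z hz => ?_, fun z hz => ?_, fun z hz => ?_, fun z hz => ?_⟩
      · rw [hαf]; exact sP.mul sQ
      · rw [hα]; exact mul_pos (slice_pos hP hz) (slice_pos hQ hz)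
      · rw [hα]
        calc P z * Q z ≤ (A * z) * (A * z) :=
              mul_le_mul (slice_le hP dP hz) (slice_le hQ dQ hz) (slice_nonneg hQ hz)
                (mul_nonneg (by linarith) hz.1)
          _ = A ^ 2 * z ^ 2 := by ring
          _ ≤ 4 * A ^ 3 * z ^ 2 := by
              refine mul_le_mul_of_nonneg_right ?_ (sq_nonneg z)
              nlinarith [sq_nonneg A]
      · have p0 := slice_pos hP hz
        have q0 := slice_pos hQ hz
        have hPd' : DifferentiableAt ℝ P z :=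
          (sP.differentiableOn (by simp)).differentiableAt (Icc_mem_nhds hz.1 hz.2)
        have hQd' : DifferentiableAt ℝ Q z :=
          (sQ.differentiableOn (by simp)).differentiableAt (Icc_mem_nhds hz.1 hz.2)
        rw [hαf, deriv_fun_mul hPd' hQd']
        have hMA : M ≤ A := by rw [hAd]; linarith [le_abs_self M, abs_nonneg Cs]
        have u1 : Q z ≤ A * P z := (hb.lower z hz).trans (mul_le_mul_of_nonneg_right hMA p0.le)
        have u2 : P z ≤ A * Q z := (hb.upper z hz).trans (mul_le_mul_of_nonneg_right hMA q0.le)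
        have v1 : deriv P z ^ 2 ≤ A ^ 2 := sq_le_sq' (abs_le.1 (dP z hz)).1 (abs_le.1 (dP z hz)).2
        have v2 : deriv Q z ^ 2 ≤ A ^ 2 := sq_le_sq' (abs_le.1 (dQ z hz)).1 (abs_le.1 (dQ z hz)).2
        calc (deriv P z * Q z + P z * deriv Q z) ^ 2
            ≤ 2 * (deriv P z ^ 2 * Q z ^ 2) + 2 * (P z ^ 2 * deriv Q z ^ 2) := by
              nlinarith [sq_nonneg (deriv P z * Q z - P z * deriv Q z)]
          _ ≤ 2 * (A ^ 2 * Q z ^ 2) + 2 * (P z ^ 2 * A ^ 2) := by gcongr
          _ ≤ 2 * (A ^ 2 * (Q z * (A * P z))) + 2 * (P z * (A * Q z) * A ^ 2) := by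
              rw [sq (Q z), sq (P z)]; gcongr
          _ = 4 * A ^ 3 * (P z * Q z) := by ring
      · rw [hα]
        rcases eq_or_lt_of_le hz.1 with h | h
        · subst h; simp [hPd, (slice_ends hP).1]
        have hd1 : z ≤ 1 := hz.2.trans (min_le_right _ _)
        have hQz : Q z = z * σ.q z := rprof_ref (by linarith)
        have hcap := hb.cap z ⟨h, by linarith⟩
        have hq1 : |σ.q z - 1| ≤ 1 / 1000 := by
          have := hq (mem_Ici.2 h.le) (by
            rw [Real.dist_eq, sub_zero, abs_of_pos h]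
            linarith [hz.2, min_le_left (min δ₀ (δ₁ / 2)) 1, min_le_right δ₀ (δ₁ / 2)])
          rw [σ.q_zero, Real.dist_eq] at this
          exact this.le
        rw [hQz]
        obtain ⟨a1, a2⟩ := abs_le.1 hcap
        obtain ⟨b1, b2⟩ := abs_le.1 hq1
        rw [abs_le]
        have hqp : 0 < z * σ.q z := mul_pos h (σ.q_pos z h.le)
        constructor
        · nlinarith [mul_le_mul_of_nonneg_right a1 hqp.le, mul_nonneg (sq_nonneg z)
            (mul_nonneg (by linarith : (0:ℝ) ≤ σ.q z - 999 / 1000)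
              (by linarith : (0:ℝ) ≤ σ.q z + 999 / 1000))]
        · nlinarith [mul_le_mul_of_nonneg_right a2 hqp.le, mul_nonneg (sq_nonneg z)
            (mul_nonneg (by linarith : (0:ℝ) ≤ 1001 / 1000 - σ.q z)
              (by linarith : (0:ℝ) ≤ 1001 / 1000 + σ.q z))]
    have hcut : Cut Y 0 δ (fun _ => 1) :=
      ⟨contDiff_const, fun _ => zero_le_one, fun _ => le_rfl, fun _ _ => rfl,
        fun z _ => by simp, fun z _ => by simp⟩
    have hedge : Edge Y (fun _ => 1) α := by
      refine Or.inr ⟨by simp [hα, hPd, hYd, (slice_ends hP).2], ?_⟩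
      have hY : 0 < Y := by linarith
      have h1 := ((sP.differentiableOn (by simp)) Y (right_mem_Icc.2 hY.le)).hasDerivWithinAt
      have h2 := ((sQ.differentiableOn (by simp)) Y (right_mem_Icc.2 hY.le)).hasDerivWithinAt
      rw [hαf, show (fun z => P z * Q z) = P * Q from rfl,
        (h1.mul h2).derivWithin ((uniqueDiffOn_Icc hY) Y (right_mem_Icc.2 hY.le))]
      simp [hYd, (slice_ends hP).2, (slice_ends hQ).2]
    have hV : ContDiffOn ℝ ∞ (snap w r) (Icc 0 Y) :=
      contDiffOn_const.mul ((Calc.Smooth2.slice_x hw.pot.smooth (tof_mem hr0.le)).comp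
        (contDiffOn_const.mul contDiffOn_id) fun _ hz => x_mem_Icc hz)
    set τ := Real.sqrt (1 - tof r) with hτ
    set fm := fun x => chiL L x * (σ.S (max 0 (x / τ)) / τ) - scal (phiRef σ L (tof r)) x with hfd
    have hmeas : Measurable fm := by
      have h1 : Measurable fun x => chiL L x * (σ.S (max 0 (x / τ)) / τ) :=
        (((Real.smoothTransition.continuous.comp (by fun_prop)).mul
          ((σ.S_smooth.continuousOn.comp_continuous (f := fun x : ℝ => max 0 (x / τ)) (by fun_prop)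
            fun x => mem_Ici.2 (le_max_left _ _)).div_const τ))).measurable
      exact h1.sub ((measurable_const.div measurable_id).sub
        ((measurable_deriv _).div (measurable_id.pow_const 7)))
    have heqm : EqOn fm (fRef σ L (tof r)) (Ioo 0 L) := fun x hx => by
      simp only [hfd, fRef, refS, hτ, max_eq_right (div_nonneg hx.1.le (Real.sqrt_nonneg _))]
    exact deriv_normN_le hse hnd hLp hw.pot hc.le hC.le hr0 hmeas heqm
      (fun x hx => (hfr _ (tof_mem hr0.le) x hx).1)
      (fun z hz => by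
        rw [show Real.exp r * (φ (tof r) (Real.exp (-r / 2) * z)
          * phiRef σ L (tof r) (Real.exp (-r / 2) * z)) = α z from rfl, hα]
        exact mul_nonneg (slice_nonneg hP hz) (slice_nonneg hQ hz))
      hδ.le (hco Y α (fun _ => 1) (snap w r) (by linarith [min_le_right (min δ₀ (δ₁ / 2)) 1]) hcoef
        hcut hedge hV)
  set K := 2 * C + 4 with hK
  set E := 2 * Cf ^ 2 / L ^ 2 with hE
  have hmono : AntitoneOn (fun r => Real.exp (-K * r) * (normN L w r + E)) (Icc s₀ s₁) := by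
    refine antitoneOn_of_deriv_nonpos (convex_Icc _ _) ?_ ?_ ?_
    · exact (by fun_prop : Continuous fun r => Real.exp (-K * r)).continuousOn.mul
        ((continuousOn_normN hLp hw.pot.smooth hs0 hs01).add continuousOn_const)
    · rw [interior_Icc]
      intro r hr
      obtain ⟨N', hN', _⟩ := hder r hr
      exact ((((hasDerivAt_id r).const_mul (-K)).exp).mul
        (hN'.add_const E)).differentiableAt.differentiableWithinAt
    · rw [interior_Icc]
      intro r hr
      obtain ⟨N', hN', hle⟩ := hder r hr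
      have hd : HasDerivAt (fun r => Real.exp (-K * r) * (normN L w r + E)) _ r :=
        (((hasDerivAt_id r).const_mul (-K)).exp).mul (hN'.add_const E)
      rw [hd.deriv]
      simp only [id_eq, mul_one]
      nlinarith [Real.exp_pos (-K * r)]
  have h := hmono (left_mem_Icc.2 hs01) (right_mem_Icc.2 hs01) hs01
  simp only at h
  have hexp : Real.exp (K * (s₁ - s₀)) * Real.exp (-K * s₁) = Real.exp (-K * s₀) := by
    rw [← Real.exp_add]; ring_nf
  have hEn : 0 ≤ E := by positivity
  calc normN L w s₁ ≤ normN L w s₁ + E := le_add_of_nonneg_right hEn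
    _ = Real.exp (K * s₁) * (Real.exp (-K * s₁) * (normN L w s₁ + E)) := by
        rw [← mul_assoc, ← Real.exp_add]; simp
    _ ≤ Real.exp (K * s₁) * (Real.exp (-K * s₀) * (normN L w s₀ + E)) :=
        mul_le_mul_of_nonneg_left h (Real.exp_pos _).le
    _ = Real.exp (K * (s₁ - s₀)) * (normN L w s₀ + E) := by
        rw [← mul_assoc, ← Real.exp_add]; ring_nf

end Vale.Agent.P264.Assembly
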