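import Vale.Agent.P264.Assembly.Cont
import Vale.Agent.P264.Dict.RelPot

/-!
The two rescaled time derivatives at time zero, expressed through the datum.
-/

namespace Vale.Agent.P264.Assembly

open Set Filter
open scoped ContDiff Topology
open Calc

/-- First time derivative at time zero for the datum `g` with potential `p`. -/
noncomputable def z1f (σ : Shrinker) (p g : ℝ → ℝ) (y : ℝ) : ℝ :=
  drift p y + σ.S y - 56 / y + dst g y

/-- Rescaled time derivative of the profile at time zero. -/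
noncomputable def psi (g : ℝ → ℝ) (y : ℝ) : ℝ :=
  g y / 2 - y * deriv g y / 2 + g y ^ 2 * deriv (deriv (scal g)) y

/-- Second time derivative at time zero. -/
noncomputable def z2f (σ : Shrinker) (p g : ℝ → ℝ) (y : ℝ) : ℝ :=
  drift (z1f σ p g) y + dst (psi g) y

theorem dst_expand {g : ℝ → ℝ} {y : ℝ} (hy : 0 < y) (hg : ContDiffAt ℝ 2 g y) :
    dst g y = deriv (deriv g) y + 14 * deriv g y / y + 42 * g y / y ^ 2 := by
  have hfd : deriv (fun z => z ^ 7 * g z) =ᶠ[𝓝 y] fun z => 7 * z ^ 6 * g z + z ^ 7 * deriv g z := by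
    filter_upwards [hg.eventually (by simp)] with z hz
    exact (((hasDerivAt_pow 7 z).mul (hz.differentiableAt (by simp)).hasDerivAt).congr_deriv
      (by norm_num)).deriv
  have a := ((hasDerivAt_pow 6 y).const_mul 7).mul (hg.differentiableAt (by simp)).hasDerivAt
  have b := (hasDerivAt_pow 7 y).mul
    ((hg.derivWithin (m := 1) (by norm_num)).differentiableAt (by simp)).hasDerivAt
  unfold dst
  have hsum : HasDerivAt (fun z => 7 * z ^ 6 * g z + z ^ 7 * deriv g z)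
      (42 * y ^ 5 * g y + 14 * y ^ 6 * deriv g y + y ^ 7 * deriv (deriv g) y) y :=
    (a.add b).congr_deriv (by norm_num; ring)
  rw [hfd.deriv_eq, hsum.deriv]
  field_simp
  ring

theorem scal_eq (g : ℝ → ℝ) (y : ℝ) : scal g y = 56 / y - dst g y := rfl

variable {σ : Shrinker} {L : ℝ} {φ₀ : ℝ → ℝ} {φ w : ℝ → ℝ → ℝ}

/-- The time derivative of the potential, up to time zero. -/
theorem pdT_w (hL : 0 < L) (h : IsFlow L 1 φ₀ φ) (hw : RelPot σ L φ w)
    (href : ∀ t ∈ Ico (0:ℝ) 1, IsProfile L (phiRef σ L t))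
    (hrefS : Smooth2 (Ico 0 1) (Icc 0 L) (phiRef σ L)) {t x : ℝ} (ht : t ∈ Ico (0:ℝ) 1)
    (hx : x ∈ Ioo 0 L) :
    pdT (Ico 0 1) (Icc 0 L) w t x = refS σ L t x - Dict.scalExt L φ t x := by
  have hu := uniqueDiffOn_Ico (0:ℝ) 1
  have hJ := uniqueDiffOn_Icc hL
  have hxJ := Ioo_subset_Icc_self hx
  have hint : ∀ r ∈ Ioo (0:ℝ) 1,
      pdT (Ico 0 1) (Icc 0 L) w r x = refS σ L r x - Dict.scalExt L φ r x := by
    intro r hr
    have hrI := Ioo_subset_Ico_self hr
    have hrc : r ∈ Icc (0:ℝ) 1 := Ioo_subset_Icc_self hr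
    rw [← Smooth2.deriv_t hw.pot.smooth (Ico_mem_nhds hr.1 hr.2) hxJ, hw.pot.eqn r hr x hx,
      ← Dict.scalExt_eq hL h hrc hx]
    have e : (fun z => φ r z * phiRef σ L r z * deriv (deriv (w r)) z) =ᶠ[𝓝 x]
        fun z => phiRef σ L r z - φ r z := by
      filter_upwards [Ioo_mem_nhds hx.1 hx.2] with z hz
      rw [hw.second r hrI z hz]
      have h1 := (h.profile r hrc).pos z hz
      have h2 := (href r hrI).pos z hz
      field_simp [h1.ne', h2.ne']
    rw [Dict.dst_congr e, Dict.dst_sub (Dict.contDiffAt_slice hrefS hrI hx)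
      (Dict.contDiffAt_slice (Dict.flow_smooth2 h) hrc hx)]
    unfold fRef scal dst
    ring
  have c1 : ContinuousOn (fun r => pdT (Ico 0 1) (Icc 0 L) w r x) (Ico 0 1) :=
    ((Smooth2.pdT hu hJ hw.pot.smooth).slice_t hxJ).continuousOn
  have c2 : ContinuousOn (fun r => refS σ L r x - Dict.scalExt L φ r x) (Ico 0 1) :=
    ((Dict.refS_smooth σ L).slice_t hxJ).continuousOn.sub
      (((Dict.scalExt_smooth2 hL h).slice_t hxJ).continuousOn.mono Ico_subset_Icc_self)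
  refine (Set.EqOn.of_subset_closure hint c1 c2 Ioo_subset_Ico_self ?_) ht
  rw [closure_Ioo zero_ne_one]
  exact Ico_subset_Icc_self

/-- The first rescaled time derivative in the inner region, for all times. -/
theorem zOne_formula (hL : 0 < L) (h : IsFlow L 1 φ₀ φ) (hw : RelPot σ L φ w)
    (href : ∀ t ∈ Ico (0:ℝ) 1, IsProfile L (phiRef σ L t))
    (hrefS : Smooth2 (Ico 0 1) (Icc 0 L) (phiRef σ L)) {s y : ℝ} (hs : 0 ≤ s)
    (hy : y ∈ Ioo 0 (L / 4)) :
    zOne w s y = drift (snap w s) y + σ.S y - 56 / y + dst (rprof φ s) y := by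
  set t := tof s
  set e := Real.exp (-s / 2)
  have he : 0 < e := Real.exp_pos _
  set x := e * y with hxdef
  have hxy : x ≤ y := x_le hy.1.le hs
  have hx : x ∈ Ioo 0 L := ⟨mul_pos he hy.1, by linarith [hy.2]⟩
  have ht := tof_mem hs
  have hW : Smooth2 (Ico 0 1) (Icc 0 L) w := hw.pot.smooth
  have hxJ := Ioo_subset_Icc_self hx
  -- chain rule along the characteristic
  have hpair : HasDerivWithinAt (fun r => (tof r, Real.exp (-r / 2) * y))
      ((Real.exp (-s), -(1 / 2) * x) : ℝ × ℝ) (Ici 0) s := by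
    refine HasDerivAt.hasDerivWithinAt (HasDerivAt.prodMk ?_ ?_)
    · exact (((hasDerivAt_id s).neg.exp).const_sub 1).congr_deriv (by simp)
    · refine ((((hasDerivAt_id s).neg.div_const 2).exp).mul_const y).congr_deriv ?_
      simp only [id, Pi.neg_apply, hxdef, e]; ring
  have hFd := ((hW.differentiableOn (by simp)) (t, x) ⟨ht, hxJ⟩).hasFDerivWithinAt
  have hsub : ∀ᶠ r in 𝓝[Ici 0] s,
      ((tof r, Real.exp (-r / 2) * y) : ℝ × ℝ) ∈ Ico (0:ℝ) 1 ×ˢ Icc 0 L := by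
    filter_upwards [self_mem_nhdsWithin] with r hr
    exact ⟨tof_mem hr, mul_nonneg (Real.exp_pos _).le hy.1.le,
      (x_le hy.1.le hr).trans (by linarith [hy.2])⟩
  have hval : fderivWithin ℝ (Function.uncurry w) (Ico 0 1 ×ˢ Icc 0 L) (t, x)
      (Real.exp (-s), -(1 / 2) * x)
      = Real.exp (-s) * pdT (Ico 0 1) (Icc 0 L) w t x
        + (-(1 / 2) * x) * pdX (Ico 0 1) (Icc 0 L) w t x := by
    have : ((Real.exp (-s), -(1 / 2) * x) : ℝ × ℝ)
        = Real.exp (-s) • (1, 0) + (-(1 / 2) * x) • (0, 1) := by simp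
    rw [this, map_add, map_smul, map_smul]
    simp [pdT, pdX]
  have hmaps : MapsTo (fun r => (tof r, Real.exp (-r / 2) * y)) (Ici 0)
      (Ico (0:ℝ) 1 ×ˢ Icc 0 L) := fun r hr => ⟨tof_mem hr, mul_nonneg (Real.exp_pos _).le hy.1.le,
      (x_le hy.1.le hr).trans (by linarith [hy.2])⟩
  have hcomp := hFd.comp_hasDerivWithinAt s hpair hmaps
  rw [hval] at hcomp
  have hexp : HasDerivWithinAt (fun r => Real.exp (r / 2)) (Real.exp (s / 2) / 2) (Ici 0) s :=
    (((hasDerivAt_id s).div_const 2).exp.congr_deriv (by simp only [id]; ring)).hasDerivWithinAt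
  have hz := (hexp.mul hcomp).derivWithin (uniqueDiffOn_Ici (0:ℝ) s hs)
  have hzOne : zOne w s y = derivWithin (fun r => Real.exp (r / 2)
      * (Function.uncurry w ∘ fun r => (tof r, Real.exp (-r / 2) * y)) r) (Ici 0) s := rfl
  rw [hzOne]
  refine hz.trans ?_
  -- the space side
  have hxn := Icc_mem_nhds hx.1 hx.2
  have hwx : deriv (snap w s) y = pdX (Ico 0 1) (Icc 0 L) w t x := by
    have : snap w s = rprof w s := rfl
    rw [this, deriv_rprof, hW.deriv_x ht hxn]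
  rw [pdT_w hL h hw href hrefS ht hx]
  have hrc : t ∈ Icc (0:ℝ) 1 := tof_mem_Icc hs
  rw [← Dict.scalExt_eq hL h hrc hx]
  -- scaling of the curvature
  have hg := Dict.contDiffAt_slice (Dict.flow_smooth2 h) hrc hx
  have hyY : y ∈ Ioo 0 (Ys L s) := ⟨hy.1, by linarith [hy.2, le_Ys hL.le hs]⟩
  have hrp : ContDiffAt ℝ 2 (rprof φ s) y :=
    ((rprof_smooth h hs).contDiffAt (Icc_mem_nhds hyY.1 hyY.2)).of_le
      (WithTop.coe_le_coe.2 le_top)
  have hd2 : deriv (deriv (rprof φ s)) y = e * deriv (deriv (φ t)) x := by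
    have : deriv (rprof φ s) = fun z => deriv (φ t) (e * z) := funext fun z => deriv_rprof φ s z
    rw [this, deriv_comp_mul_left, smul_eq_mul]
  rw [scal_eq, dst_expand hy.1 hrp, dst_expand hx.1 hg, hd2, deriv_rprof]
  have hrefS' : refS σ L t x = σ.S y / e := by
    rw [refS, sqrt_one_sub_tof, Dict.chiL_eq_one hL (hxy.trans hy.2.le), one_mul, hxdef,
      mul_div_cancel_left₀ _ he.ne']
  rw [hrefS', drift, hwx]
  simp only [snap, rprof, Function.comp_apply, Function.uncurry_apply_pair]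
  show Real.exp (s / 2) / 2 * w t x + Real.exp (s / 2) * (Real.exp (-s) * (σ.S y / e
      - (56 / x - (deriv (deriv (φ t)) x + 14 * deriv (φ t) x / x + 42 * φ t x / x ^ 2)))
      + -(1 / 2) * x * pdX (Ico 0 1) (Icc 0 L) w t x) = _
  have e1 : Real.exp (-s) = e * e := by rw [← Real.exp_add]; ring_nf
  have e2 : Real.exp (s / 2) = 1 / e := by
    rw [eq_div_iff he.ne']; exact exp_half_mul s
  rw [e1, e2]
  simp only [show Real.exp (-s / 2) = e from rfl, show tof s = t from rfl]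
  have hy0 : y ≠ 0 := hy.1.ne'
  simp only [hxdef]
  field_simp
  ring

theorem z1_at_zero (hL : 0 < L) (h : IsFlow L 1 φ₀ φ) (hw : RelPot σ L φ w)
    (href : ∀ t ∈ Ico (0:ℝ) 1, IsProfile L (phiRef σ L t))
    (hrefS : Smooth2 (Ico 0 1) (Icc 0 L) (phiRef σ L)) {p : ℝ → ℝ}
    (hp : ∀ x ∈ Icc 0 L, w 0 x = p x) {y : ℝ} (hy : y ∈ Ioo 0 (L / 4)) :
    zOne w 0 y = z1f σ p φ₀ y := by
  rw [zOne_formula hL h hw href hrefS le_rfl hy, z1f]
  have hn : Ioo 0 L ∈ 𝓝 y := Ioo_mem_nhds hy.1 (by linarith [hy.2])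
  have e1 : snap w 0 =ᶠ[𝓝 y] p := by
    filter_upwards [hn] with z hz
    rw [snap_zero, hp z (Ioo_subset_Icc_self hz)]
  have e2 : rprof φ 0 =ᶠ[𝓝 y] φ₀ := by
    filter_upwards [hn] with z hz
    rw [rprof_zero, h.initial z (Ioo_subset_Icc_self hz)]
  rw [drift, drift, e1.deriv_eq, e1.self_of_nhds, Dict.dst_congr e2]

theorem z2_at_zero (hL : 0 < L) (h : IsFlow L 1 φ₀ φ) (hw : RelPot σ L φ w)
    (href : ∀ t ∈ Ico (0:ℝ) 1, IsProfile L (phiRef σ L t))
    (hrefS : Smooth2 (Ico 0 1) (Icc 0 L) (phiRef σ L)) {p : ℝ → ℝ}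
    (hp : ∀ x ∈ Icc 0 L, w 0 x = p x) {y : ℝ} (hy : y ∈ Ioo 0 (L / 4)) :
    zTwo w 0 y = z2f σ p φ₀ y := by
  have hb : L / 4 ≤ L := by linarith
  have hI := uniqueDiffOn_Ici (0:ℝ)
  have hJ : UniqueDiffOn ℝ (Icc (0:ℝ) (L / 4)) := uniqueDiffOn_Icc (by linarith)
  set I := Ici (0:ℝ)
  set J := Icc (0:ℝ) (L / 4)
  have hV : Smooth2 I J (snap w) := snap_smooth2 hb hw
  have hP : Smooth2 I J (rprof φ) := smooth2_rescaled hb (flow_Ico h)
  have hyJ : y ∈ J := Ioo_subset_Icc_self hy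
  have hJn : J ∈ 𝓝 y := Icc_mem_nhds hy.1 hy.2
  have h0 : (0:ℝ) ∈ I := self_mem_Ici
  have hcl : ∀ z ∈ J, ((0:ℝ), z) ∈ closure (interior (I ×ˢ J)) := fun z hz => by
    rw [interior_prod_eq, interior_Ici, interior_Icc, closure_prod_eq, closure_Ioi,
      closure_Ioo (show (0:ℝ) ≠ L / 4 by linarith)]
    exact ⟨self_mem_Ici, hz⟩
  -- the rescaled time derivative of the profile at zero
  have hpsi : ∀ z ∈ Ioo 0 (L / 4), pdT I J (rprof φ) 0 z = psi φ₀ z := by
    intro z hz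
    have hzL : z ∈ Ioo 0 L := ⟨hz.1, by linarith [hz.2]⟩
    have hzc := Ioo_subset_Icc_self hzL
    have hφ := Dict.flow_smooth2 h
    have hu01 := uniqueDiffOn_Icc (zero_lt_one' ℝ)
    have hJL := uniqueDiffOn_Icc hL
    have hz0 : (0:ℝ) ∈ Icc (0:ℝ) 1 := left_mem_Icc.2 zero_le_one
    have hsc := Dict.scalExt_smooth2 hL h
    -- the equation up to time zero
    have heq : pdT (Icc 0 1) (Icc 0 L) φ 0 z = φ 0 z ^ 2
        * pdX (Icc 0 1) (Icc 0 L) (pdX (Icc 0 1) (Icc 0 L) (Dict.scalExt L φ)) 0 z := by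
      refine (Set.EqOn.of_subset_closure (f := fun r => pdT (Icc 0 1) (Icc 0 L) φ r z)
        (g := fun r => φ r z ^ 2
          * pdX (Icc 0 1) (Icc 0 L) (pdX (Icc 0 1) (Icc 0 L) (Dict.scalExt L φ)) r z)
        (s := Ioo (0:ℝ) 1) ?_ ?_ ?_ Ioo_subset_Icc_self (closure_Ioo zero_ne_one).ge) hz0
      · intro r hr
        have hrc : r ∈ Icc (0:ℝ) 1 := Ioo_subset_Icc_self hr
        show pdT (Icc 0 1) (Icc 0 L) φ r z = φ r z ^ 2
          * pdX (Icc 0 1) (Icc 0 L) (pdX (Icc 0 1) (Icc 0 L) (Dict.scalExt L φ)) r z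
        rw [← hφ.deriv_t (Icc_mem_nhds hr.1 hr.2) hzc, h.eqn r hr z hzL,
          ← hsc.deriv2_x hu01 hJL hrc (Icc_mem_nhds hzL.1 hzL.2)]
        congr 1
        apply Dict.deriv_deriv_congr
        filter_upwards [Ioo_mem_nhds hzL.1 hzL.2] with v hv
        exact Dict.scalExt_eq hL h hrc hv
      · exact ((hφ.pdT hu01 hJL).slice_t hzc).continuousOn
      · exact ((hφ.slice_t hzc).continuousOn.pow 2).mul
          (((hsc.pdX hu01 hJL).pdX hu01 hJL).slice_t hzc).continuousOn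
    rw [← hsc.deriv2_x hu01 hJL hz0 (Icc_mem_nhds hzL.1 hzL.2)] at heq
    have e0 : φ 0 =ᶠ[𝓝 z] φ₀ := by
      filter_upwards [Ioo_mem_nhds hzL.1 hzL.2] with v hv
      exact h.initial v (Ioo_subset_Icc_self hv)
    have e0' : Dict.scalExt L φ 0 =ᶠ[𝓝 z] scal φ₀ := by
      filter_upwards [Ioo_mem_nhds hzL.1 hzL.2, eventually_eventually_nhds.2 e0] with v hv hv'
      rw [← Dict.scalExt_eq hL h hz0 hv, scal_eq, scal_eq, Dict.dst_congr hv']
    rw [Dict.deriv_deriv_congr e0', e0.self_of_nhds] at heq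
    -- chain rule
    have hpair : HasDerivWithinAt (fun r => (tof r, Real.exp (-r / 2) * z))
        ((1, -(1 / 2) * z) : ℝ × ℝ) (Ici 0) 0 := by
      refine HasDerivAt.hasDerivWithinAt (HasDerivAt.prodMk ?_ ?_)
      · exact (((hasDerivAt_id (0:ℝ)).neg.exp).const_sub 1).congr_deriv (by simp)
      · refine ((((hasDerivAt_id (0:ℝ)).neg.div_const 2).exp).mul_const z).congr_deriv ?_
        simp only [id, Pi.neg_apply, neg_zero, zero_div, Real.exp_zero]; ring
    have hmaps : MapsTo (fun r => (tof r, Real.exp (-r / 2) * z)) (Ici 0)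
        (Icc (0:ℝ) 1 ×ˢ Icc 0 L) := fun r hr => ⟨tof_mem_Icc hr,
        mul_nonneg (Real.exp_pos _).le hz.1.le, (x_le hz.1.le hr).trans hzL.2.le⟩
    have hFd := ((hφ.differentiableOn (by simp)) (0, z) ⟨hz0, hzc⟩).hasFDerivWithinAt
    have hcomp := hFd.comp_hasDerivWithinAt_of_eq (0:ℝ) hpair hmaps (by simp [tof])
    have hval : fderivWithin ℝ (Function.uncurry φ) (Icc 0 1 ×ˢ Icc 0 L) (0, z) (1, -(1 / 2) * z)
        = pdT (Icc 0 1) (Icc 0 L) φ 0 z + (-(1 / 2) * z) * pdX (Icc 0 1) (Icc 0 L) φ 0 z := by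
      have : ((1, -(1 / 2) * z) : ℝ × ℝ) = (1, 0) + (-(1 / 2) * z) • ((0, 1) : ℝ × ℝ) := by simp
      rw [this, map_add, map_smul]
      simp [pdT, pdX]
    rw [hval, heq, ← hφ.deriv_x hz0 (Icc_mem_nhds hzL.1 hzL.2), e0.deriv_eq] at hcomp
    have hexp : HasDerivWithinAt (fun r => Real.exp (r / 2)) (1 / 2) (Ici 0) 0 :=
      (((hasDerivAt_id (0:ℝ)).div_const 2).exp.congr_deriv (by simp)).hasDerivWithinAt
    have hres := (hexp.mul hcomp).derivWithin (hI 0 h0)
    rw [← hP.derivWithin_t hI h0 (Ioo_subset_Icc_self hz)]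
    refine hres.trans ?_
    simp only [Function.comp_apply, Function.uncurry_apply_pair, zero_div, neg_zero, Real.exp_zero,
      tof_zero, one_mul, e0.self_of_nhds, psi]
    ring
  -- differentiate the formula for the first derivative
  have hform : ∀ r ∈ Ici (0:ℝ), zOne w r y = drift (snap w r) y + σ.S y - 56 / y
      + (pdX I J (pdX I J (rprof φ)) r y + 14 * pdX I J (rprof φ) r y / y
        + 42 * rprof φ r y / y ^ 2) := by
    intro r hr
    rw [zOne_formula hL h hw href hrefS hr hy, dst_expand hy.1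
      (((hP.slice_x hr).contDiffAt hJn).of_le (WithTop.coe_le_coe.2 le_top)),
      hP.deriv2_x hI hJ hr hJn, hP.deriv_x hr hJn]
  have hdr : ∀ r ∈ Ici (0:ℝ), drift (snap w r) y = snap w r y / 2 - y * pdX I J (snap w) r y / 2 :=
    fun r hr => by rw [drift, hV.deriv_x hr hJn]
  have hD : HasDerivWithinAt (fun r => zOne w r y)
      (pdT I J (snap w) 0 y / 2 - y * pdT I J (pdX I J (snap w)) 0 y / 2
        + (pdT I J (pdX I J (pdX I J (rprof φ))) 0 y
          + 14 * pdT I J (pdX I J (rprof φ)) 0 y / y + 42 * pdT I J (rprof φ) 0 y / y ^ 2))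
      (Ici 0) 0 := by
    have t1 := (hV.hasDerivWithinAt_t h0 hyJ).div_const 2
    have t2 := (((hV.pdX hI hJ).hasDerivWithinAt_t h0 hyJ).const_mul y).div_const 2
    have t3 := ((hP.pdX hI hJ).pdX hI hJ).hasDerivWithinAt_t h0 hyJ
    have t4 := (((hP.pdX hI hJ).hasDerivWithinAt_t h0 hyJ).const_mul 14).div_const y
    have t5 := ((hP.hasDerivWithinAt_t h0 hyJ).const_mul 42).div_const (y ^ 2)
    have := (((t1.sub t2).add_const (σ.S y)).sub_const (56 / y)).add ((t3.add t4).add t5)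
    refine this.congr (fun r hr => ?_) ?_
    · rw [hform r hr, hdr r hr]; rfl
    · rw [hform 0 h0, hdr 0 h0]; rfl
  show derivWithin (fun r => zOne w r y) (Ici 0) 0 = _
  rw [hD.derivWithin (hI 0 h0)]
  -- commute the derivatives
  have hQ := hP.pdT hI hJ
  have c1 : pdT I J (pdX I J (rprof φ)) 0 y = deriv (psi φ₀) y := by
    rw [hP.pdT_pdX hI hJ h0 hyJ (hcl y hyJ), ← hQ.deriv_x h0 hJn]
    refine Filter.EventuallyEq.deriv_eq ?_
    filter_upwards [Ioo_mem_nhds hy.1 hy.2] with z hz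
    exact hpsi z hz
  have c2 : pdT I J (pdX I J (pdX I J (rprof φ))) 0 y = deriv (deriv (psi φ₀)) y := by
    rw [(hP.pdX hI hJ).pdT_pdX hI hJ h0 hyJ (hcl y hyJ),
      ← ((hP.pdX hI hJ).pdT hI hJ).deriv_x h0 hJn]
    refine Filter.EventuallyEq.deriv_eq ?_
    filter_upwards [Ioo_mem_nhds hy.1 hy.2] with z hz
    have hzJ : J ∈ 𝓝 z := Icc_mem_nhds hz.1 hz.2
    rw [hP.pdT_pdX hI hJ h0 (mem_of_mem_nhds hzJ) (hcl z (mem_of_mem_nhds hzJ)),
      ← hQ.deriv_x h0 hzJ]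
    refine Filter.EventuallyEq.deriv_eq ?_
    filter_upwards [Ioo_mem_nhds hz.1 hz.2] with v hv
    exact hpsi v hv
  have c3 : pdT I J (pdX I J (snap w)) 0 y = deriv (z1f σ p φ₀) y := by
    rw [hV.pdT_pdX hI hJ h0 hyJ (hcl y hyJ), ← (hV.pdT hI hJ).deriv_x h0 hJn]
    refine Filter.EventuallyEq.deriv_eq ?_
    filter_upwards [Ioo_mem_nhds hy.1 hy.2] with z hz
    rw [← zOne_eq hb hw le_rfl (Ioo_subset_Icc_self hz), z1_at_zero hL h hw href hrefS hp hz]
  have c4 : pdT I J (snap w) 0 y = z1f σ p φ₀ y := by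
    rw [← zOne_eq hb hw le_rfl hyJ, z1_at_zero hL h hw href hrefS hp hy]
  have hps : ContDiffAt ℝ 2 (psi φ₀) y := by
    refine (((hQ.slice_x h0).contDiffAt hJn).of_le
      (WithTop.coe_le_coe.2 le_top)).congr_of_eventuallyEq ?_
    filter_upwards [Ioo_mem_nhds hy.1 hy.2] with z hz
    exact (hpsi z hz).symm
  rw [z2f, drift, dst_expand hy.1 hps, c1, c2, c3, c4, hpsi y hy]

end Vale.Agent.P264.Assembly
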