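import Vale.Agent.P264.Assembly.InitFormula

/-!
Uniform smallness of the initial quantities for small combinations of fixed test potentials.
-/

namespace Vale.Agent.P264.Assembly

open Set
open scoped ContDiff

/-- A combination of test potentials. -/
def comb {d : ℕ} (p : Fin d → ℝ → ℝ) (c : Fin d → ℝ) (y : ℝ) : ℝ := ∑ i, c i * p i y

/-- The datum on the region where the reference is the shrinker. -/
noncomputable def coreDatum (σ : Shrinker) (P : ℝ → ℝ) (y : ℝ) : ℝ :=
  profF σ y / (1 + profF σ y * dd P y)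

/-- Small combinations give small first and second time derivatives, supported in `[a, b]`. -/
def InitSmallTarget : Prop :=
  ∀ (σ : Shrinker) (d : ℕ) (a b : ℝ) (p : Fin d → ℝ → ℝ), 0 < a → (∀ i, Supp a b (p i)) →
    ∀ ε : ℝ, 0 < ε → ∃ r : ℝ, 0 < r ∧ ∀ c : Fin d → ℝ, ‖c‖ ≤ r → ∀ y : ℝ, 0 < y →
      |profF σ y * dd (comb p c) y| ≤ ε ∧
      |deriv (coreDatum σ (comb p c)) y - deriv (profF σ) y| ≤ ε ∧
      |z1f σ (comb p c) (coreDatum σ (comb p c)) y| ≤ ε ∧
      |z2f σ (comb p c) (coreDatum σ (comb p c)) y| ≤ ε ∧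
      (y ∉ Icc a b → z1f σ (comb p c) (coreDatum σ (comb p c)) y = 0 ∧
        z2f σ (comb p c) (coreDatum σ (comb p c)) y = 0)

end Vale.Agent.P264.Assembly
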