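import Mathlib
import Vale.Agent.P264.Assembly.InitTargets

/-!
Small combinations of test potentials give small initial quantities.
-/

namespace Vale.Agent.P264.Assembly

open Set Filter Function
open scoped ContDiff Topology

/-- A family depending smoothly on the parameter and the variable, on an open set. -/
def Sm {d : ℕ} (U : Set ((Fin d → ℝ) × ℝ)) (G : (Fin d → ℝ) → ℝ → ℝ) : Prop :=
  ContDiffOn ℝ ∞ (uncurry G) U

variable {d : ℕ} {U : Set ((Fin d → ℝ) × ℝ)} {G H : (Fin d → ℝ) → ℝ → ℝ}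

theorem Sm.slice_hasDerivAt (hU : IsOpen U) (hG : Sm U G) {z : (Fin d → ℝ) × ℝ} (hz : z ∈ U) :
    HasDerivAt (G z.1) (fderiv ℝ (uncurry G) z (0, 1)) z.2 := by
  have h := ((hG.contDiffAt (hU.mem_nhds hz)).differentiableAt (by simp)).hasFDerivAt
  have h2 : HasDerivAt (fun t : ℝ => (z.1, t)) ((0, 1) : (Fin d → ℝ) × ℝ) z.2 :=
    (hasDerivAt_const z.2 z.1).prodMk (hasDerivAt_id z.2)
  exact h.comp_hasDerivAt z.2 h2

theorem Sm.deriv (hU : IsOpen U) (hG : Sm U G) : Sm U (fun c => deriv (G c)) := by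
  refine ((hG.fderiv_of_isOpen hU (by simp)).clm_apply
    (contDiffOn_const (c := ((0, 1) : (Fin d → ℝ) × ℝ)))).congr fun z hz => ?_
  exact (hG.slice_hasDerivAt hU hz).deriv

theorem Sm.dd (hU : IsOpen U) (hG : Sm U G) : Sm U (fun c => Assembly.dd (G c)) :=
  (hG.deriv hU).deriv hU

/-- A function of the variable alone. -/
theorem sm_const {f : ℝ → ℝ} (hf : ContDiffOn ℝ ∞ f (Ioi 0)) (hpos : ∀ z ∈ U, 0 < z.2) :
    Sm U (fun _ => f) :=
  hf.comp contDiff_snd.contDiffOn fun z hz => hpos z hz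

theorem Sm.dst (hU : IsOpen U) (hpos : ∀ z ∈ U, 0 < z.2) (hG : Sm U G) :
    Sm U (fun c => P264.dst (G c)) := by
  have h7 : Sm U (fun _ y => y ^ 7) := (contDiff_snd.pow 7).contDiffOn
  have hp : Sm U (fun c y => y ^ 7 * G c y) := h7.mul hG
  exact ((hp.deriv hU).deriv hU).div h7 fun z hz => pow_ne_zero _ (hpos z hz).ne'

theorem Sm.drift (hU : IsOpen U) (hG : Sm U G) : Sm U (fun c => P264.drift (G c)) :=
  (ContDiffOn.div_const hG 2).sub ((contDiff_snd.contDiffOn.mul (hG.deriv hU)).div_const 2)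

theorem Sm.scal (hU : IsOpen U) (hpos : ∀ z ∈ U, 0 < z.2) (hG : Sm U G) :
    Sm U (fun c => P264.scal (G c)) :=
  (contDiffOn_const.div contDiff_snd.contDiffOn fun z hz => (hpos z hz).ne').sub
    (hG.dst hU hpos)

theorem Sm.psi (hU : IsOpen U) (hpos : ∀ z ∈ U, 0 < z.2) (hG : Sm U G) :
    Sm U (fun c => Assembly.psi (G c)) :=
  ((ContDiffOn.div_const hG 2).sub
      ((contDiff_snd.contDiffOn.mul (hG.deriv hU)).div_const 2)).add
    ((ContDiffOn.pow hG 2).mul (((hG.scal hU hpos).deriv hU).deriv hU))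

theorem Sm.z1f (σ : Shrinker) (hU : IsOpen U) (hpos : ∀ z ∈ U, 0 < z.2) (hG : Sm U G)
    (hH : Sm U H) : Sm U (fun c => Assembly.z1f σ (G c) (H c)) :=
  (((hG.drift hU).add (sm_const (σ.S_smooth.mono Ioi_subset_Ici_self) hpos)).sub
    (contDiffOn_const.div contDiff_snd.contDiffOn fun z hz => (hpos z hz).ne')).add
      (hH.dst hU hpos)

theorem Sm.z2f (σ : Shrinker) (hU : IsOpen U) (hpos : ∀ z ∈ U, 0 < z.2) (hG : Sm U G)
    (hH : Sm U H) : Sm U (fun c => Assembly.z2f σ (G c) (H c)) :=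
  ((hG.z1f σ hU hpos hH).drift hU).add ((hH.psi hU hpos).dst hU hpos)

/-- Uniform smallness on a compact interval from vanishing at the zero parameter. -/
theorem Sm.small (hU : IsOpen U) (hG : Sm U G) {K : Set ℝ} (hK : IsCompact K)
    (hmem : ∀ y ∈ K, ((0 : Fin d → ℝ), y) ∈ U) (h0 : ∀ y ∈ K, G 0 y = 0) {ε : ℝ} (hε : 0 < ε) :
    ∀ᶠ c in 𝓝 (0 : Fin d → ℝ), ∀ y ∈ K, |G c y| ≤ ε := by
  refine hK.eventually_forall_of_forall_eventually fun y hy => ?_
  have hc : ContinuousAt (uncurry G) (0, y) :=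
    hG.continuousOn.continuousAt (hU.mem_nhds (hmem y hy))
  have h1 : Tendsto (fun z => |uncurry G z|) (𝓝 ((0 : Fin d → ℝ), y)) (𝓝 0) := by
    have := hc.abs
    rwa [ContinuousAt, show uncurry G (0, y) = 0 from h0 y hy, abs_zero] at this
  exact (h1.eventually (Iic_mem_nhds hε)).mono fun z hz => hz

theorem scal_congr {f g : ℝ → ℝ} {y : ℝ} (h : f =ᶠ[𝓝 y] g) : scal f y = scal g y := by
  rw [scal_eq, scal_eq, Dict.dst_congr h]

theorem drift_congr {f g : ℝ → ℝ} {y : ℝ} (h : f =ᶠ[𝓝 y] g) : drift f y = drift g y := by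
  rw [drift, drift, h.deriv_eq, h.self_of_nhds]

theorem psi_congr {f g : ℝ → ℝ} {y : ℝ} (h : f =ᶠ[𝓝 y] g) : psi f y = psi g y := by
  have hs : scal f =ᶠ[𝓝 y] scal g := h.eventuallyEq_nhds.mono fun z hz => scal_congr hz
  rw [psi, psi, h.deriv_eq, h.self_of_nhds, hs.deriv.deriv_eq]

theorem z1f_congr (σ : Shrinker) {p p' g g' : ℝ → ℝ} {y : ℝ} (hp : p =ᶠ[𝓝 y] p')
    (hg : g =ᶠ[𝓝 y] g') : z1f σ p g y = z1f σ p' g' y := by
  rw [z1f, z1f, drift_congr hp, Dict.dst_congr hg]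

theorem z2f_congr (σ : Shrinker) {p p' g g' : ℝ → ℝ} {y : ℝ} (hp : p =ᶠ[𝓝 y] p')
    (hg : g =ᶠ[𝓝 y] g') : z2f σ p g y = z2f σ p' g' y := by
  have h1 : z1f σ p g =ᶠ[𝓝 y] z1f σ p' g' :=
    (hp.eventuallyEq_nhds.and hg.eventuallyEq_nhds).mono fun z hz => z1f_congr σ hz.1 hz.2
  have h2 : psi g =ᶠ[𝓝 y] psi g' := hg.eventuallyEq_nhds.mono fun z hz => psi_congr hz
  rw [z2f, z2f, drift_congr h1, Dict.dst_congr h2]

theorem z1f_shrinker (σ : Shrinker) {y : ℝ} (hy : 0 < y) :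
    z1f σ (fun _ => 0) (profF σ) y = 0 := by
  have h := σ.S_eq y hy
  rw [scal_eq] at h
  have h' : σ.S y = 56 / y - dst (profF σ) y := h
  simp only [z1f, drift, deriv_const]
  linarith

theorem psi_shrinker (σ : Shrinker) {y : ℝ} (hy : 0 < y) : psi (profF σ) y = 0 := by
  have hn : Ioi (0 : ℝ) ∈ 𝓝 y := Ioi_mem_nhds hy
  have hq : ∀ z, 0 < z → HasDerivAt σ.q (deriv σ.q z) z := fun z hz =>
    (((σ.q_smooth.contDiffAt (Ici_mem_nhds hz))).differentiableAt (by simp)).hasDerivAt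
  have hs : scal (profF σ) =ᶠ[𝓝 y] σ.S :=
    eventually_of_mem hn fun z hz => (σ.S_eq z hz).symm
  have h1 : deriv σ.S =ᶠ[𝓝 y] fun z => 1 / (2 * σ.c) - 1 / (2 * σ.q z) :=
    eventually_of_mem hn fun z hz => σ.shrink z hz
  have hqy := σ.q_pos y hy.le
  have h2 : HasDerivAt (fun z => 1 / (2 * σ.c) - 1 / (2 * σ.q z))
      (deriv σ.q y / (2 * σ.q y ^ 2)) y := by
    refine (((hasDerivAt_const y (1 : ℝ)).div ((hq y hy).const_mul 2)
      (mul_ne_zero two_ne_zero hqy.ne')).const_sub (1 / (2 * σ.c))).congr_deriv ?_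
    field_simp
    ring
  have hF : HasDerivAt (profF σ) (σ.q y + y * deriv σ.q y) y :=
    ((hasDerivAt_id' y).mul (hq y hy)).congr_deriv (by ring)
  rw [psi, hs.deriv.deriv_eq, h1.deriv_eq, h2.deriv, hF.deriv, profF]
  field_simp
  ring

theorem z2f_shrinker (σ : Shrinker) {y : ℝ} (hy : 0 < y) :
    z2f σ (fun _ => 0) (profF σ) y = 0 := by
  have hn : Ioi (0 : ℝ) ∈ 𝓝 y := Ioi_mem_nhds hy
  have h1 : z1f σ (fun _ => 0) (profF σ) =ᶠ[𝓝 y] fun _ => 0 :=
    eventually_of_mem hn fun z hz => z1f_shrinker σ hz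
  have h2 : psi (profF σ) =ᶠ[𝓝 y] fun _ => 0 :=
    eventually_of_mem hn fun z hz => psi_shrinker σ hz
  rw [z2f, drift_congr h1, Dict.dst_congr h2]
  simp [drift, dst]

theorem initSmall : InitSmallTarget := by
  intro σ d a b p ha hp ε hε
  set T : (Fin d → ℝ) → ℝ → ℝ := fun c => comb p c with hT
  set U : Set ((Fin d → ℝ) × ℝ) :=
    {z | 0 < z.2 ∧ 0 < 1 + profF σ z.2 * dd (T z.1) z.2} with hUdef
  set V : Set ((Fin d → ℝ) × ℝ) := {z | 0 < z.2} with hVdef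
  have hV : IsOpen V := isOpen_lt continuous_const continuous_snd
  have hTs : ContDiff ℝ ∞ (uncurry T) := by
    show ContDiff ℝ ∞ fun z : (Fin d → ℝ) × ℝ => ∑ i, z.1 i * p i z.2
    exact ContDiff.sum fun i _ =>
      ((contDiff_apply ℝ ℝ i).comp contDiff_fst).mul ((hp i).smooth.comp contDiff_snd)
  have hTV : Sm V T := hTs.contDiffOn
  have hFV : Sm V (fun _ => profF σ) :=
    sm_const ((profF_smooth σ).mono Ioi_subset_Ici_self) fun z hz => hz
  have hfac : Sm V (fun c y => 1 + profF σ y * dd (T c) y) :=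
    ContDiffOn.add contDiffOn_const (ContDiffOn.mul hFV (hTV.dd hV))
  have hU : IsOpen U := by
    have e : U = V ∩ (fun z => 1 + profF σ z.2 * dd (T z.1) z.2) ⁻¹' Ioi 0 := by
      ext z; rfl
    rw [e]
    exact hfac.continuousOn.isOpen_inter_preimage hV isOpen_Ioi
  have hpos : ∀ z ∈ U, 0 < z.2 := fun z hz => hz.1
  have hUV : U ⊆ V := fun z hz => hz.1
  have hTU : Sm U T := hTs.contDiffOn
  have hFU : Sm U (fun _ => profF σ) := ContDiffOn.mono hFV hUV
  have hD : Sm U (fun c => coreDatum σ (T c)) :=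
    ContDiffOn.div hFU (ContDiffOn.mono hfac hUV) fun z hz => hz.2.ne'
  have hT0 : T 0 = fun _ => 0 := funext fun y => by simp [hT, comb]
  have hdd0 : ∀ y, dd (T 0) y = 0 := fun y => by simp [hT0, dd]
  have hD0 : coreDatum σ (T 0) = profF σ := funext fun y => by simp [coreDatum, hdd0]
  have hmem : ∀ y ∈ Icc a b, ((0 : Fin d → ℝ), y) ∈ U := fun y hy =>
    ⟨ha.trans_le hy.1, by simp [hdd0]⟩
  have hK : IsCompact (Icc a b) := isCompact_Icc
  have g1 : Sm U (fun c y => profF σ y * dd (T c) y) := ContDiffOn.mul hFU (hTU.dd hU)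
  have g2 : Sm U (fun c y => deriv (coreDatum σ (T c)) y - deriv (profF σ) y) :=
    ContDiffOn.sub (hD.deriv hU) (hFU.deriv hU)
  have e1 := g1.small hU hK hmem (fun y _ => by simp [hdd0]) hε
  have e2 := g2.small hU hK hmem (fun y _ => by simp [hD0]) hε
  have e3 := (hTU.z1f σ hU hpos hD).small hU hK hmem
    (fun y hy => by rw [hD0, hT0]; exact z1f_shrinker σ (ha.trans_le hy.1)) hε
  have e4 := (hTU.z2f σ hU hpos hD).small hU hK hmem
    (fun y hy => by rw [hD0, hT0]; exact z2f_shrinker σ (ha.trans_le hy.1)) hε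
  obtain ⟨r, hr, hball⟩ :=
    Metric.nhds_basis_closedBall.eventually_iff.1 (((e1.and e2).and e3).and e4)
  refine ⟨r, hr, fun c hc y hy => ?_⟩
  by_cases hab : y ∈ Icc a b
  · obtain ⟨⟨⟨f1, f2⟩, f3⟩, f4⟩ := hball (x := c) (mem_closedBall_zero_iff.2 hc)
    exact ⟨f1 y hab, f2 y hab, f3 y hab, f4 y hab, fun h => absurd hab h⟩
  · have hTc : T c =ᶠ[𝓝 y] fun _ => 0 := by
      filter_upwards [isClosed_Icc.isOpen_compl.mem_nhds hab] with z hz
      simp [hT, comb, fun i => (hp i).zero z hz]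
    have hdd : ∀ᶠ z in 𝓝 y, dd (T c) z = 0 := by
      have := hTc.deriv.deriv
      simpa [dd, EventuallyEq] using this
    have hDc : coreDatum σ (T c) =ᶠ[𝓝 y] profF σ := by
      filter_upwards [hdd] with z hz
      simp [coreDatum, hz]
    have z1 : z1f σ (T c) (coreDatum σ (T c)) y = 0 :=
      (z1f_congr σ hTc hDc).trans (z1f_shrinker σ hy)
    have z2 : z2f σ (T c) (coreDatum σ (T c)) y = 0 :=
      (z2f_congr σ hTc hDc).trans (z2f_shrinker σ hy)
    change |profF σ y * dd (T c) y| ≤ ε ∧ |deriv (coreDatum σ (T c)) y - deriv (profF σ) y| ≤ ε ∧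
      |z1f σ (T c) (coreDatum σ (T c)) y| ≤ ε ∧ |z2f σ (T c) (coreDatum σ (T c)) y| ≤ ε ∧ _
    rw [hdd.self_of_nhds, hDc.deriv_eq, z1, z2]
    simp only [mul_zero, sub_self, abs_zero]
    exact ⟨hε.le, hε.le, hε.le, hε.le, by simp⟩

end Vale.Agent.P264.Assembly
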