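import Vale.Agent.P264.Assembly.Glue
import Vale.Agent.P264.Abstract.Split
import Vale.Agent.P264.Abstract.Trap
import Vale.Agent.P264.Dict.Targets

/-!
The disproof from the module statements: trap, then the neck contradicts smoothness at time one.
-/

namespace Vale.Agent.P264.Assembly

open Set Filter MeasureTheory
open scoped ContDiff Topology
open LinOp

/-- The growth bound with its hypotheses discharged. -/
def Grows : Prop :=
  ∀ (σ : Shrinker) (M : ℝ), ∃ R₀ : ℝ, 0 < R₀ ∧ ∀ R : ℝ, R₀ ≤ R →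
    ∃ η₀ K C L₀ : ℝ, 0 < η₀ ∧ 0 ≤ K ∧ 0 ≤ C ∧ ∀ L : ℝ, L₀ ≤ L →
      ∀ (φ₀ : ℝ → ℝ) (φ w : ℝ → ℝ → ℝ), IsFlow L 1 φ₀ φ → RelPot σ L φ w →
        ∀ s₀ s₁ : ℝ, 0 ≤ s₀ → s₀ ≤ s₁ →
          (∀ s ∈ Icc s₀ s₁, Boot σ L R η₀ M φ w s) →
          normN L w s₁ ≤ Real.exp (K * (s₁ - s₀)) * (normN L w s₀ + C / L ^ 2)

/-- Existence of linearised trajectories from the assumption that every datum has a flow. -/
def ExistFromFlows : Prop :=
  AllFlows → ∀ σ : Shrinker, ∃ Ma : ℝ, ∀ M' : ℝ, Ma ≤ M' → Exist σ M'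

variable {σ : Shrinker} {L R η M κ Cc : ℝ} {φ₀ : ℝ → ℝ} {φ w : ℝ → ℝ → ℝ}

/-- The flow is a family close to the shrinker where the bootstrap holds. -/
theorem fam_flow (h : IsFlow L 1 φ₀ φ) {e r s₀ T : ℝ} (hr : r ≤ 8 * R)
    (hB : ∀ s ∈ Icc s₀ (s₀ + T), Boot σ L R η (2 * M) φ w s)
    (hclose : ∀ s ∈ Icc s₀ (s₀ + T), ∀ y ∈ Ioo 0 (8 * R),
      |rprof φ s y - profF σ y| ≤ e * profF σ y) :
    Fam σ (2 * M) e L φ s₀ T r :=
  ⟨fun t ht => h.profile t (Ico_subset_Icc_self ht), flow_Ico h, fun s hs => (hB s hs).slope,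
    fun s hs y hy => hclose s hs y ⟨hy.1, hy.2.trans_le hr⟩⟩

/-- The reference is a family equal to the shrinker up to `L/4`. -/
theorem fam_ref {e r s₀ T : ℝ} (he : 0 ≤ e) (hs₀ : 0 ≤ s₀) (hr : r ≤ L / 4)
    (hP : ∀ t ∈ Ico (0:ℝ) 1, IsProfile L (phiRef σ L t))
    (hS : Calc.Smooth2 (Ico 0 1) (Icc 0 L) (phiRef σ L))
    (hsl : ∀ t ∈ Ico (0:ℝ) 1, ∀ x ∈ Ioo 0 L, |deriv (phiRef σ L t) x| ≤ 2 * M) (hL : 0 ≤ L) :
    Fam σ (2 * M) e L (phiRef σ L) s₀ T r := by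
  refine ⟨hP, hS, fun s hs y hy => ?_, fun s hs y hy => ?_⟩
  · rw [deriv_rprof]; exact hsl _ (tof_mem (hs₀.trans hs.1)) _ (x_mem_Ioo hy)
  · have := le_Ys hL (hs₀.trans hs.1)
    rw [rprof_ref (by linarith [hy.2]), sub_self, abs_zero]
    exact mul_nonneg he (profF_nonneg σ hy.1.le)

/-- What we keep about the flow chosen for one parameter. -/
structure Traj (σ : Shrinker) (L R η M κ e : ℝ) (φ₀ P : ℝ → ℝ) (φ w : ℝ → ℝ → ℝ) : Prop where
  flow : IsFlow L 1 φ₀ φ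
  pot : RelPot σ L φ w
  init : ∀ x ∈ Icc 0 L, w 0 x = P x
  cont : ∀ T : ℝ, (∀ s ∈ Icc 0 T, (∀ v ∈ Icc 0 s, Boot σ L R η (2 * M) φ w v) →
      normN L w s ≤ κ * η) → ∀ s ∈ Icc 0 T, Boot σ L R η (2 * M) φ w s
  close : ∀ s : ℝ, 0 ≤ s → Boot σ L R η (2 * M) φ w s →
    ∀ y ∈ Ioo 0 (8 * R), |rprof φ s y - profF σ y| ≤ e * profF σ y

/-- Small at the grid points up to `j` gives the bootstrap one step further. -/
theorem boot_step {P : ℝ → ℝ} {e K Cg G N₀ ηg : ℝ} (hT : Traj σ L R η M κ e φ₀ P φ w)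
    (hL : 0 < L) (hK : 0 ≤ K) (hCg : 0 ≤ Cg) (hη : η ≤ ηg)
    (hgrow : ∀ s₀ s₁ : ℝ, 0 ≤ s₀ → s₀ ≤ s₁ →
      (∀ s ∈ Icc s₀ s₁, Boot σ L R ηg (2 * M) φ w s) →
      normN L w s₁ ≤ Real.exp (K * (s₁ - s₀)) * (normN L w s₀ + Cg / L ^ 2))
    {m j : ℕ} (hm : 1 ≤ m) (hG : G = Real.exp (K * m))
    (hgrid : ∀ i, i ≤ j → ‖stateAt L w ((i * m : ℕ) : ℝ)‖ ^ 2 ≤ N₀)
    (hsmall : G * N₀ + G * (Cg / L ^ 2) ≤ κ * η) :
    ∀ s ∈ Icc (0:ℝ) (((j + 1) * m : ℕ) : ℝ), Boot σ L R η (2 * M) φ w s := by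
  refine hT.cont _ fun s hs hbs => ?_
  set i := min (⌊s / m⌋₊) j with hi
  have hmR : (0:ℝ) < m := by exact_mod_cast hm
  have h1 : ((i * m : ℕ) : ℝ) ≤ s := by
    push_cast
    have : (i : ℝ) ≤ s / m := le_trans (by exact_mod_cast min_le_left _ _)
      (Nat.floor_le (div_nonneg hs.1 hmR.le))
    rwa [le_div_iff₀ hmR] at this
  have h2 : s - ((i * m : ℕ) : ℝ) ≤ m := by
    push_cast
    rcases min_cases (⌊s / (m : ℝ)⌋₊) j with ⟨he', -⟩ | ⟨he', -⟩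
    · rw [hi, he']
      have := Nat.lt_floor_add_one (s / (m : ℝ))
      rw [div_lt_iff₀ hmR] at this
      linarith
    · rw [hi, he']
      have := hs.2
      push_cast at this
      linarith
  have hN := hgrow ((i * m : ℕ) : ℝ) s (Nat.cast_nonneg _) h1 fun v hv =>
    have hb := hbs v ⟨(Nat.cast_nonneg _).trans hv.1, hv.2⟩
    ⟨hb.small.trans hη, hb.lower, hb.upper, hb.slope, hb.cap⟩
  have hsq := stateAt_sq hL hT.pot.pot.smooth (Nat.cast_nonneg (i * m))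
  have hVi : normN L w ((i * m : ℕ) : ℝ) ≤ N₀ := by rw [← hsq]; exact hgrid i (min_le_right _ _)
  have hpos : 0 ≤ normN L w ((i * m : ℕ) : ℝ) + Cg / L ^ 2 := by rw [← hsq]; positivity
  calc normN L w s
      ≤ Real.exp (K * (s - ((i * m : ℕ) : ℝ))) * (normN L w ((i * m : ℕ) : ℝ) + Cg / L ^ 2) := hN
    _ ≤ G * (N₀ + Cg / L ^ 2) := mul_le_mul (hG ▸ Real.exp_le_exp.2
        (mul_le_mul_of_nonneg_left h2 hK)) (by linarith) hpos (hG ▸ (Real.exp_pos _).le)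
    _ ≤ κ * η := by rw [mul_add]; linarith

/-- Monotonicity in the coefficient bound. -/
theorem good_mono {M₁ M₂ δ s₀ T : ℝ} {a : ℝ → ℝ → ℝ} (h : Good σ M₁ δ L a s₀ T) (hM : M₁ ≤ M₂) :
    Good σ M₂ δ L a s₀ T :=
  ⟨h.δ_pos, h.start, h.long, h.smooth, h.edge, h.pos,
    fun s hs y hy => (h.upper s hs y hy).trans (mul_le_mul_of_nonneg_right hM (sq_nonneg y)),
    fun s hs y hy => (h.slope s hs y hy).trans
      (mul_le_mul_of_nonneg_right hM (h.pos s hs y hy).le),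
    h.close, h.origin⟩

/-- The coefficient relative to the reference. -/
theorem good_ref {P : ℝ → ℝ} {e δ s₀ T : ℝ} (hT : Traj σ L R η M κ e φ₀ P φ w) (hM : 1 ≤ M)
    (hδ : 0 < δ) (he : 0 ≤ e) (he1 : e ≤ 1) (heδ : 3 * e ≤ δ) (hs₀ : 0 ≤ s₀)
    (hδR : 1 / δ ≤ 8 * R) (hδL : 1 / δ ≤ L / 4)
    (hP : ∀ t ∈ Ico (0:ℝ) 1, IsProfile L (phiRef σ L t))
    (hS : Calc.Smooth2 (Ico 0 1) (Icc 0 L) (phiRef σ L))
    (hsl : ∀ t ∈ Ico (0:ℝ) 1, ∀ x ∈ Ioo 0 L, |deriv (phiRef σ L t) x| ≤ 2 * M)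
    (hB : ∀ s ∈ Icc s₀ (s₀ + T), Boot σ L R η (2 * M) φ w s) :
    Good σ ((2 * M) ^ 2 + 4 * (2 * M) ^ 2 * (2 * M) ^ 2) δ L
      (fun t x => φ t x * phiRef σ L t x) s₀ T := by
  have hδ' : 0 < 1 / δ := by positivity
  have hL : 0 < L := by linarith
  have hMK : 2 * M ≤ (2 * M) ^ 2 := by nlinarith
  refine good_prod hδ hs₀ (by linarith) he he1 heδ (by positivity)
    (fam_flow hT.flow hδR hB fun s hs y hy => hT.close s (hs₀.trans hs.1) (hB s hs) y hy)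
    (fam_ref he hs₀ hδL hP hS hsl hL.le) (fun s hs y hy => ?_) (fun s hs y hy => ?_)
  · refine ((hB s hs).upper y hy).trans (mul_le_mul_of_nonneg_right hMK ?_)
    exact mul_nonneg (Real.exp_pos _).le
      ((hP _ (tof_mem (hs₀.trans hs.1))).pos _ (x_mem_Ioo hy)).le
  · exact ((hB s hs).lower y hy).trans
      (mul_le_mul_of_nonneg_right hMK (rprof_pos hT.flow (hs₀.trans hs.1) hy).le)

/-- The coefficient of a difference of two flows. -/
theorem good_pair {P P' φ₀' : ℝ → ℝ} {φ' w' : ℝ → ℝ → ℝ} {e δ s₀ T : ℝ}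
    (hT : Traj σ L R η M κ e φ₀ P φ w) (hT' : Traj σ L R η M κ e φ₀' P' φ' w') (hM : 1 ≤ M)
    (hδ : 0 < δ) (he : 0 ≤ e) (he1 : e ≤ 1) (heδ : 3 * e ≤ δ) (hs₀ : 0 ≤ s₀)
    (hδR : 1 / δ ≤ 8 * R) (hδL : 1 / δ ≤ L / 4)
    (hB : ∀ s ∈ Icc s₀ (s₀ + T), Boot σ L R η (2 * M) φ w s)
    (hB' : ∀ s ∈ Icc s₀ (s₀ + T), Boot σ L R η (2 * M) φ' w' s) :
    Good σ ((2 * M) ^ 2 + 4 * (2 * M) ^ 2 * (2 * M) ^ 2) δ L
      (fun t x => φ t x * φ' t x) s₀ T := by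
  have hδ' : 0 < 1 / δ := by positivity
  have hA : 0 ≤ 2 * M := by linarith
  refine good_prod hδ hs₀ (by linarith) he he1 heδ (by positivity)
    (fam_flow hT.flow hδR hB fun s hs y hy => hT.close s (hs₀.trans hs.1) (hB s hs) y hy)
    (fam_flow hT'.flow hδR hB' fun s hs y hy => hT'.close s (hs₀.trans hs.1) (hB' s hs) y hy)
    (fun s hs y hy => ?_) (fun s hs y hy => ?_)
  · calc rprof φ s y ≤ 2 * M * rprof (phiRef σ L) s y := (hB s hs).upper y hy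
      _ ≤ 2 * M * (2 * M * rprof φ' s y) :=
          mul_le_mul_of_nonneg_left ((hB' s hs).lower y hy) hA
      _ = (2 * M) ^ 2 * rprof φ' s y := by ring
  · calc rprof φ' s y ≤ 2 * M * rprof (phiRef σ L) s y := (hB' s hs).upper y hy
      _ ≤ 2 * M * (2 * M * rprof φ s y) :=
          mul_le_mul_of_nonneg_left ((hB s hs).lower y hy) hA
      _ = (2 * M) ^ 2 * rprof φ s y := by ring

theorem disproof_of (σ : Shrinker) (hrun : RunTarget) (hgrow : Grows)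
    (hdiff : Dict.DiffPotTarget) (hlin : LinOpTarget) (hex : ExistFromFlows)
    (hRef : Middle.RefTarget) : Disproof := by
  classical
  by_contra hno
  have hall : AllFlows := by
    intro L φ₀ hL hφ₀
    by_contra hne
    exact hno ⟨L, hL, φ₀, hφ₀, fun φ hφ => hne ⟨φ, hφ⟩⟩
  obtain ⟨M, R₀, hM, hR₀, hrun⟩ := hrun σ
  obtain ⟨Ma, hMa⟩ := hex hall σ
  obtain ⟨Lr, Cr, hLr, hCr, href⟩ := hRef σ
  set A := 2 * M with hA
  set K₀ := A ^ 2 with hK₀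
  set M' := max Ma (A ^ 2 + 4 * K₀ * A ^ 2) with hM'
  obtain ⟨B, P, θ, C₁, hθ0, hθ1, hfin, hBP, hclose⟩ := hlin σ M' (hMa M' (le_max_left _ _))
  set a₀ := max θ (Real.exp (-(1 / 2))) with ha₀
  have ha1 : a₀ < 1 := max_lt hθ1 (by rw [Real.exp_lt_one_iff]; norm_num)
  obtain ⟨ρ, ρ1, ρ2, hρa, hρ1, hρ2, hρ3, ⟨S⟩⟩ :=
    Abstract.split B P θ a₀ hθ0 (le_max_left _ _) ha1 hfin hBP
  obtain ⟨a, b, p, J, ha, hb, hsupp, hbij, hJ⟩ := exists_basis S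
  have hθρ : θ < ρ1 := lt_of_le_of_lt (le_max_left _ _) (hρa.trans hρ1)
  have hρpos : 0 ≤ ρ := hθ0.trans ((le_max_left _ _).trans hρa.le)
  have hρ1pos : 0 < ρ1 := lt_of_le_of_lt hρpos hρ1
  have hexp : Real.exp (-(1 / 2)) ≤ ρ1 := (le_max_right _ _).trans (hρa.trans hρ1).le
  obtain ⟨κt, Γ, m₀, hκt, hΓ, htrap⟩ := Abstract.trap hρpos hρ1 hρ2 S J hbij
  -- the number of steps
  have hlim : Tendsto (fun n : ℕ => C₁ * (θ / ρ1) ^ n) atTop (𝓝 0) := by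
    have := (tendsto_pow_atTop_nhds_zero_of_lt_one (div_nonneg hθ0 hρ1pos.le)
      ((div_lt_one hρ1pos).2 hθρ)).const_mul C₁
    simpa using this
  obtain ⟨m, hm, hm₀⟩ := ((hlim.eventually (gt_mem_nhds (half_pos hκt))).and
    (eventually_ge_atTop (max m₀ 1))).exists
  have hm0' : m₀ ≤ m := (le_max_left _ _).trans hm₀
  have hm1 : 1 ≤ m := (le_max_right _ _).trans hm₀
  set lam := ρ1 ^ m with hlam
  have hlam0 : 0 < lam := pow_pos hρ1pos m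
  have hρ1one : ρ1 < 1 := hρ2.trans hρ3
  have hlam1 : lam ≤ 1 := pow_le_one₀ hρ1pos.le hρ1one.le
  have hCθ : C₁ * θ ^ m ≤ κt / 2 * lam := by
    rw [div_pow, ← mul_div_assoc, div_lt_iff₀ hlam0] at hm
    exact hm.le
  obtain ⟨δ₀, C, hδ₀, hC, hstep⟩ := hclose m (κt * lam / 2) (by positivity)
  obtain ⟨Rg, hRg, hgrow⟩ := hgrow σ (2 * M)
  set R := R₀ + Rg + b + σ.y₀ + 1 / δ₀ with hR
  have hy₀ := σ.y₀_pos
  have hRδ : 0 < 1 / δ₀ := by positivity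
  have hRpos : 0 < R := by positivity
  obtain ⟨κ, Cc, η₁, hκ, hCc, hη₁, hrun⟩ := hrun R (by linarith)
  obtain ⟨ηg, K, Cg, Lg, hηg, hK, hCg, hgrow⟩ := hgrow R (by linarith)
  set η := min (min η₁ ηg) ((min (1 / 1000) δ₀ / (3 * Cc)) ^ 2) with hη
  have hηpos : 0 < η := lt_min (lt_min hη₁ hηg) (by positivity)
  have hη1 : η ≤ η₁ := (min_le_left _ _).trans (min_le_left _ _)
  have hηg' : η ≤ ηg := (min_le_left _ _).trans (min_le_right _ _)
  set e := Cc * Real.sqrt η with he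
  have he0 : 0 ≤ e := by positivity
  have he3 : 3 * e ≤ min (1 / 1000) δ₀ := by
    have h := Real.sqrt_le_sqrt (min_le_right (min η₁ ηg) ((min (1 / 1000) δ₀ / (3 * Cc)) ^ 2))
    rw [Real.sqrt_sq (by positivity)] at h
    rw [le_div_iff₀ (by positivity)] at h
    calc 3 * e = Real.sqrt η * (3 * Cc) := by rw [he]; ring
      _ ≤ min (1 / 1000) δ₀ := h
  have he1 : e ≤ 1 / 3000 := by linarith [he3.trans (min_le_left (1 / 1000 : ℝ) δ₀)]
  have heδ : 3 * e ≤ δ₀ := he3.trans (min_le_right _ _)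
  obtain ⟨r, L₀, hr, hL₀, hdata⟩ := hrun S.d a b p ha (by linarith) hsupp η hηpos hη1
  set G := Real.exp (K * m) with hG
  have hG0 : 0 < G := Real.exp_pos _
  set ηt := min (r / Γ) (Real.sqrt (κ * η / (2 * G)) / Γ) with hηt
  have hηt0 : 0 < ηt := by positivity
  have hηtr : Γ * ηt ≤ r := by
    calc Γ * ηt ≤ Γ * (r / Γ) := mul_le_mul_of_nonneg_left (min_le_left _ _) hΓ.le
      _ = r := by field_simp
  have hηtN : G * (Γ * ηt) ^ 2 ≤ κ * η / 2 := by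
    have h : Γ * ηt ≤ Real.sqrt (κ * η / (2 * G)) := by
      calc Γ * ηt ≤ Γ * (Real.sqrt (κ * η / (2 * G)) / Γ) :=
            mul_le_mul_of_nonneg_left (min_le_right _ _) hΓ.le
        _ = _ := by field_simp
    have h2 := (Real.le_sqrt (by positivity) (by positivity)).1 h
    calc G * (Γ * ηt) ^ 2 ≤ G * (κ * η / (2 * G)) := mul_le_mul_of_nonneg_left h2 hG0.le
      _ = κ * η / 2 := by field_simp
  set L := max (max (max L₀ Lr) (max Lg 4)) (max (32 * R)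
    (max (C * Cr / (κt * ηt * lam)) (Real.sqrt (2 * G * Cg / (κ * η))))) with hLdef
  have hL0' : L₀ ≤ L := le_max_of_le_left (le_max_of_le_left (le_max_left _ _))
  have hLr' : Lr ≤ L := le_max_of_le_left (le_max_of_le_left (le_max_right _ _))
  have hLg' : Lg ≤ L := le_max_of_le_left (le_max_of_le_right (le_max_left _ _))
  have hL4 : 4 ≤ L := le_max_of_le_left (le_max_of_le_right (le_max_right _ _))
  have hLR : 32 * R ≤ L := le_max_of_le_right (le_max_left _ _)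
  have hLF : C * Cr / (κt * ηt * lam) ≤ L :=
    le_max_of_le_right (le_max_of_le_right (le_max_left _ _))
  have hLS : Real.sqrt (2 * G * Cg / (κ * η)) ≤ L :=
    le_max_of_le_right (le_max_of_le_right (le_max_right _ _))
  have hLpos : 0 < L := by linarith
  have hLgrow : G * (Cg / L ^ 2) ≤ κ * η / 2 := by
    have h := pow_le_pow_left₀ (Real.sqrt_nonneg _) hLS 2
    rw [Real.sq_sqrt (by positivity), div_le_iff₀ (by positivity)] at h
    rw [← mul_div_assoc, div_le_iff₀ (by positivity)]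
    linarith
  obtain ⟨hlong, hrefP, hrefS, hrefSl, hprof, hflow⟩ := hdata L hL0'
  obtain ⟨-, -, hf⟩ := href L hLr'
  -- choose a flow and a potential for every parameter
  have hsel : ∀ c : Fin S.d → ℝ, ∃ φw : (ℝ → ℝ → ℝ) × (ℝ → ℝ → ℝ), ‖c‖ ≤ r →
      Traj σ L R η M κ e (datum σ L (comb p c)) (comb p c) φw.1 φw.2 := by
    intro c
    by_cases hc : ‖c‖ ≤ r
    · obtain ⟨ψ, hψ⟩ := hall L _ hLpos (hprof c hc)
      obtain ⟨v, hv1, hv2, hv3, hv4⟩ := hflow c hc ψ hψ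
      exact ⟨(ψ, v), fun _ => ⟨hψ, hv1, hv2, hv3, hv4⟩⟩
    · exact ⟨(0, 0), fun h => absurd h hc⟩
  choose Φ hΦ using hsel
  set V : ℕ → (Fin S.d → ℝ) → H := fun j c => stateAt L (Φ c).2 ((j * m : ℕ) : ℝ) with hV
  have hboot : ∀ j c, Abstract.Dom V (Γ * ηt) lam j c →
      ∀ s ∈ Icc (0:ℝ) (((j + 1) * m : ℕ) : ℝ), Boot σ L R η (2 * M) (Φ c).1 (Φ c).2 s := by
    intro j c hdom
    have hT := hΦ c (hdom.1.trans hηtr)
    refine boot_step hT hLpos hK hCg hηg' (hgrow L hLg' _ _ _ hT.flow hT.pot) hm1 hG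
      (N₀ := (Γ * ηt) ^ 2) (fun i hi => ?_) (by linarith)
    refine pow_le_pow_left₀ (norm_nonneg _) ?_ 2
    exact (hdom.2 i hi).trans
      (mul_le_of_le_one_right (by positivity) (pow_le_one₀ hlam0.le hlam1))
  have hwin : ∀ j c, Abstract.Dom V (Γ * ηt) lam j c →
      ∀ s ∈ Icc ((j * m : ℕ) : ℝ) (((j * m : ℕ) : ℝ) + (m : ℝ)),
        Boot σ L R η (2 * M) (Φ c).1 (Φ c).2 s := fun j c hdom s hs =>
    hboot j c hdom s ⟨(Nat.cast_nonneg _).trans hs.1, by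
      have := hs.2; push_cast at this ⊢; linarith⟩
  have hM' : (2 * M) ^ 2 + 4 * (2 * M) ^ 2 * (2 * M) ^ 2 ≤ M' := le_max_right _ _
  have hδR : 1 / δ₀ ≤ 8 * R := by linarith
  have hδL : 1 / δ₀ ≤ L / 4 := by linarith
  have he1' : e ≤ 1 := by linarith
  set F := C * (Cr / L) with hF
  have hFt : F ≤ κt * ηt * lam := by
    rw [div_le_iff₀ (by positivity)] at hLF
    rw [hF, ← mul_div_assoc, div_le_iff₀ hLpos]
    linarith
  have hεb : C₁ * θ ^ m + κt * lam / 2 ≤ κt * lam := by linarith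
  have hsucc : ∀ j : ℕ, (((j + 1) * m : ℕ) : ℝ) = ((j * m : ℕ) : ℝ) + (m : ℝ) := fun j => by
    push_cast; ring
  have h0 : ∀ c : Fin S.d → ℝ, ‖c‖ ≤ Γ * ηt → V 0 c = J c := by
    intro c hc
    have hT := hΦ c (hc.trans hηtr)
    show stateAt L (Φ c).2 ((0 * m : ℕ) : ℝ) = J c
    simp only [Nat.zero_mul, Nat.cast_zero]
    rw [stateAt_zero (continuousOn_finsetSum _ fun i _ =>
      continuousOn_const.mul (hsupp i).smooth.continuous.continuousOn) hT.pot.pot.smooth hT.init]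
    exact hJ L (by linarith) c
  have h1 : ∀ j c, Abstract.Dom V (Γ * ηt) lam j c →
      ‖V (j + 1) c - (B ^ m) (V j c)‖ ≤ κt * lam * ‖V j c‖ + F * lam ^ j := by
    intro j c hdom
    have hT := hΦ c (hdom.1.trans hηtr)
    have hs₀ : (0:ℝ) ≤ ((j * m : ℕ) : ℝ) := Nat.cast_nonneg _
    have hgood := good_mono (good_ref hT hM.le hδ₀ he0 he1' heδ hs₀ hδR hδL hrefP hrefS hrefSl
      (hwin j c hdom)) hM'
    have h := hstep δ₀ L ((j * m : ℕ) : ℝ) _ _ _ _ le_rfl hT.pot.pot hgood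
      (forced_ref hL4 hCr.le hf hs₀)
    show ‖stateAt L (Φ c).2 (((j + 1) * m : ℕ) : ℝ) - _‖ ≤ _
    rw [hsucc]
    refine h.trans (add_le_add (mul_le_mul_of_nonneg_right hεb (norm_nonneg _)) ?_)
    have he' : Real.exp (-((j * m : ℕ) : ℝ) / 2) ≤ lam ^ j := by
      rw [show -((j * m : ℕ) : ℝ) / 2 = ((m * j : ℕ) : ℝ) * (-(1 / 2)) by push_cast; ring,
        Real.exp_nat_mul, hlam, ← pow_mul]
      exact pow_le_pow_left₀ (Real.exp_pos _).le hexp _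
    calc C * (Real.exp (-((j * m : ℕ) : ℝ) / 2) * (Cr / L))
        ≤ C * (lam ^ j * (Cr / L)) := by gcongr
      _ = F * lam ^ j := by rw [hF]; ring
  have h2 : ∀ j c c', Abstract.Dom V (Γ * ηt) lam j c → Abstract.Dom V (Γ * ηt) lam j c' →
      ‖V (j + 1) c - V (j + 1) c' - (B ^ m) (V j c - V j c')‖
        ≤ κt * lam * ‖V j c - V j c'‖ := by
    intro j c c' hdom hdom'
    have hT := hΦ c (hdom.1.trans hηtr)
    have hT' := hΦ c' (hdom'.1.trans hηtr)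
    have hs₀ : (0:ℝ) ≤ ((j * m : ℕ) : ℝ) := Nat.cast_nonneg _
    have hgood := good_mono (good_pair hT hT' hM.le hδ₀ he0 he1' heδ hs₀ hδR hδL (hwin j c hdom)
      (hwin j c' hdom')) hM'
    have hpot := hdiff σ L _ _ _ _ _ _ hLpos hT.flow hT'.flow hrefS
      (fun t ht x hx => (hrefP t ht).pos x hx) hT.pot hT'.pot
    have h := hstep δ₀ L ((j * m : ℕ) : ℝ) 0 _ _ _ le_rfl hpot hgood
      ⟨le_rfl, fun s hs y hy => by simp⟩
    rw [stateAt_sub hT.pot.pot.smooth hT'.pot.pot.smooth (by positivity),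
      stateAt_sub hT.pot.pot.smooth hT'.pot.pot.smooth hs₀, mul_zero, add_zero] at h
    show ‖stateAt L (Φ c).2 (((j + 1) * m : ℕ) : ℝ) - stateAt L (Φ c').2 _ - _‖ ≤ _
    rw [hsucc]
    exact h.trans (mul_le_mul_of_nonneg_right hεb (norm_nonneg _))
  obtain ⟨c, hc, hcV⟩ := htrap m hm0' (κt * lam) ηt F (by positivity) le_rfl hηt0
    (by positivity) hFt V h0 h1 h2
  -- the neck survives up to the final time
  have hcr : ‖c‖ ≤ r := hc.trans hηtr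
  obtain ⟨hfl, -, -, -, hcl⟩ := hΦ c hcr
  refine no_neck hLpos hfl σ.y₀_pos fun s hs => ?_
  obtain ⟨j, hj⟩ := exists_nat_ge s
  have hsj : s ≤ (((j + 1) * m : ℕ) : ℝ) := by
    refine hj.trans (Nat.cast_le.2 ?_)
    calc j ≤ (j + 1) * 1 := by omega
      _ ≤ (j + 1) * m := Nat.mul_le_mul_left _ hm1
  have hB := hboot j c ⟨hc, fun i _ => hcV i⟩ s ⟨hs, hsj⟩
  have hy : σ.y₀ ∈ Ioo 0 (8 * R) := ⟨σ.y₀_pos, by linarith⟩
  have h := (abs_le.1 (hcl s hs hB σ.y₀ hy)).2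
  have hq := σ.neck
  have hF0 : profF σ σ.y₀ ≤ σ.y₀ / 10 := by
    rw [profF]
    calc σ.y₀ * σ.q σ.y₀ ≤ σ.y₀ * (1 / 10) := mul_le_mul_of_nonneg_left hq σ.y₀_pos.le
      _ = σ.y₀ / 10 := by ring
  have h2 := mul_le_mul_of_nonneg_right (he1.trans (by norm_num : (1:ℝ) / 3000 ≤ 1))
    (profF_nonneg σ σ.y₀_pos.le)
  linarith

end Vale.Agent.P264.Assembly
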